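import Mathlib

/-!
P130: facts on square integrable functions on the circle, and the model of a bilateral shift.
-/

noncomputable section

namespace Vale.Agent.P130

open MeasureTheory Filter Topology AddCircle Submodule
open scoped ComplexInnerProductSpace ComplexConjugate

/-- The circle. -/
abbrev Circ := AddCircle (1 : ℝ)

/-- Square integrable functions on the circle. -/
abbrev L2Circ := Lp ℂ 2 (haarAddCircle : Measure Circ)

/-- An integrable function without Fourier coefficients vanishes almost everywhere. -/
theorem ae_zero_of_fourierCoeff {F : Circ → ℂ} (hF : Integrable F haarAddCircle)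
    (h : ∀ n, fourierCoeff F n = 0) : F =ᵐ[haarAddCircle] 0 := by
  have hint : ∀ φ : C(Circ, ℂ), Integrable (fun x => φ x * F x) haarAddCircle := fun φ =>
    hF.bdd_mul φ.continuous.aestronglyMeasurable
      (Eventually.of_forall fun x => φ.norm_coe_le_norm x)
  let Λ : C(Circ, ℂ) →L[ℂ] ℂ := LinearMap.mkContinuous
    { toFun := fun φ => ∫ x, φ x * F x ∂haarAddCircle
      map_add' := fun φ ψ => by
        simp only [ContinuousMap.add_apply, add_mul]
        exact integral_add (hint φ) (hint ψ)
      map_smul' := fun c φ => by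
        simp only [ContinuousMap.smul_apply, smul_eq_mul, mul_assoc, RingHom.id_apply]
        exact integral_const_mul c _ }
    (∫ x, ‖F x‖ ∂haarAddCircle) fun φ => by
      rw [mul_comm, ← integral_const_mul]
      refine norm_integral_le_of_norm_le (hF.norm.const_mul _) (Eventually.of_forall fun x => ?_)
      rw [norm_mul]
      exact mul_le_mul_of_nonneg_right (φ.norm_coe_le_norm x) (norm_nonneg _)
  have hΛ : ∀ φ, Λ φ = 0 := by
    intro φ
    have hle : (span ℂ (Set.range (@fourier 1))).topologicalClosure ≤ LinearMap.ker Λ.toLinearMap := by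
      refine topologicalClosure_minimal _ (span_le.2 ?_) Λ.isClosed_ker
      rintro _ ⟨n, rfl⟩
      have := h (-n)
      simp only [fourierCoeff, neg_neg, smul_eq_mul] at this
      exact this
    rw [span_fourier_closure_eq_top] at hle
    exact hle (mem_top (x := φ))
  refine ae_eq_zero_of_forall_setIntegral_isClosed_eq_zero hF fun s hs => ?_
  have htend : Tendsto (fun n => ∫ x, ((hs.apprSeq n x : ℝ) : ℂ) * F x ∂haarAddCircle) atTop
      (𝓝 (∫ x in s, F x ∂haarAddCircle)) := by
    rw [← integral_indicator hs.measurableSet]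
    refine tendsto_integral_of_dominated_convergence (fun x => ‖F x‖) (fun n => ?_) hF.norm
      (fun n => Eventually.of_forall fun x => ?_) (Eventually.of_forall fun x => ?_)
    · exact ((Complex.continuous_ofReal.comp (NNReal.continuous_coe.comp
        (hs.apprSeq n).continuous)).aestronglyMeasurable).mul hF.aestronglyMeasurable
    · rw [norm_mul, Complex.norm_real, Real.norm_of_nonneg (NNReal.coe_nonneg _)]
      exact mul_le_of_le_one_left (norm_nonneg _) (by exact_mod_cast HasOuterApproxClosed.apprSeq_apply_le_one hs n x)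
    · have h1 := ((NNReal.continuous_coe.tendsto _).comp
        (tendsto_pi_nhds.1 (HasOuterApproxClosed.tendsto_apprSeq hs) x))
      have h2 := ((Complex.continuous_ofReal.tendsto _).comp h1).mul_const (F x)
      by_cases hx : x ∈ s <;> simpa [hx, Set.indicator] using h2
  have h0 : ∀ n, ∫ x, ((hs.apprSeq n x : ℝ) : ℂ) * F x ∂haarAddCircle = 0 := fun n =>
    hΛ ⟨fun x => ((hs.apprSeq n x : ℝ) : ℂ), Complex.continuous_ofReal.comp
      (NNReal.continuous_coe.comp (hs.apprSeq n).continuous)⟩
  simp_rw [h0] at htend
  exact (tendsto_const_nhds_iff.1 htend).symm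

theorem memLp_fourier_mul (k : ℤ) (ψ : L2Circ) :
    MemLp (fun x => fourier k x * ψ x) 2 haarAddCircle :=
  (Lp.memLp ψ).of_le ((fourier k).continuous.aestronglyMeasurable.mul (Lp.aestronglyMeasurable ψ))
    (Eventually.of_forall fun x => by
      simp only [norm_mul, fourier_apply, Circle.norm_coe, one_mul, le_refl])

/-- Multiplication by the monomial of degree `k`. -/
def mulFourier (k : ℤ) : L2Circ →L[ℂ] L2Circ :=
  LinearMap.mkContinuous
    { toFun := fun ψ => (memLp_fourier_mul k ψ).toLp _
      map_add' := fun ψ χ => by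
        rw [← MemLp.toLp_add]
        refine MemLp.toLp_congr _ _ ?_
        filter_upwards [Lp.coeFn_add ψ χ] with x hx
        simp only [hx, Pi.add_apply, mul_add]
      map_smul' := fun c ψ => by
        rw [RingHom.id_apply, ← MemLp.toLp_const_smul]
        refine MemLp.toLp_congr _ _ ?_
        filter_upwards [Lp.coeFn_smul c ψ] with x hx
        simp only [hx, Pi.smul_apply, smul_eq_mul]
        ring }
    1 fun ψ => by
      rw [one_mul]
      refine Lp.norm_le_norm_of_ae_le ?_
      filter_upwards [MemLp.coeFn_toLp (memLp_fourier_mul k ψ)] with x hx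
      simp only [LinearMap.coe_mk, AddHom.coe_mk]
      rw [hx, norm_mul, fourier_apply, Circle.norm_coe, one_mul]

theorem coeFn_mulFourier (k : ℤ) (ψ : L2Circ) :
    mulFourier k ψ =ᵐ[haarAddCircle] fun x => fourier k x * ψ x :=
  MemLp.coeFn_toLp (memLp_fourier_mul k ψ)

variable {H : Type*} [NormedAddCommGroup H] [InnerProductSpace ℂ H] [CompleteSpace H] {u : ℤ → H}

/-- The isometry of the circle model onto the closed span of an orthonormal orbit. -/
def model (hu : Orthonormal ℂ u) : L2Circ →ₗᵢ[ℂ] H :=
  (hu.orthogonalFamily.linearIsometry).comp (fourierBasis (T := 1)).repr.toLinearIsometry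

theorem model_fourier (hu : Orthonormal ℂ u) (i : ℤ) : model hu (fourierLp 2 i) = u i := by
  rw [← coe_fourierBasis]
  simp only [model, LinearIsometry.coe_comp, Function.comp_apply,
    LinearIsometryEquiv.coe_toLinearIsometry, HilbertBasis.repr_self,
    OrthogonalFamily.linearIsometry_apply_single, LinearIsometry.toSpanSingleton_apply, one_smul]

/-- The shift becomes multiplication by a monomial. -/
theorem model_intertwine (hu : Orthonormal ℂ u) {k : ℤ} (U : H →L[ℂ] H)
    (hU : ∀ i, U (u i) = u (i + k)) (ψ : L2Circ) :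
    U (model hu ψ) = model hu (mulFourier k ψ) := by
  have h : U.comp (model hu).toContinuousLinearMap =
      (model hu).toContinuousLinearMap.comp (mulFourier k) := by
    refine ContinuousLinearMap.ext_on (s := Set.range (@fourierLp 1 _ 2 _)) ?_ ?_
    · rw [Submodule.dense_iff_topologicalClosure_eq_top]
      exact span_fourierLp_closure_eq_top (by simp)
    · rintro _ ⟨i, rfl⟩
      have he : mulFourier k (fourierLp 2 i) = fourierLp 2 (i + k) := by
        ext1
        filter_upwards [coeFn_mulFourier k (fourierLp 2 i), coeFn_fourierLp 2 i,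
          coeFn_fourierLp 2 (i + k)] with x h1 h2 h3
        rw [h1, h2, h3, fourier_add, mul_comm]
      simp [he, model_fourier, hU]
  exact DFunLike.congr_fun h ψ

/-- The closed span of the orbit contains everything orthogonal to nothing in it. -/
theorem mem_range_model (hu : Orthonormal ℂ u) {g : H}
    (hg : ∀ k, (∀ i, ⟪u i, k⟫ = 0) → ⟪k, g⟫ = 0) : ∃ ψ, model hu ψ = g := by
  set K : Submodule ℂ H := LinearMap.range (model hu).toLinearMap
  have hcl : IsClosed (K : Set H) := (model hu).isometry.isClosedEmbedding.isClosed_range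
  have : CompleteSpace K := hcl.completeSpace_coe
  have hmem : g ∈ Kᗮᗮ := (Submodule.mem_orthogonal _ _).2 fun k hk => hg k fun i =>
    (Submodule.mem_orthogonal _ _).1 hk (u i) ⟨fourierLp 2 i, model_fourier hu i⟩
  rw [Submodule.orthogonal_orthogonal] at hmem
  exact hmem

/-- Correlations are Fourier coefficients. -/
theorem inner_mulFourier (k : ℤ) (ψ χ : L2Circ) :
    ⟪mulFourier k ψ, χ⟫ = fourierCoeff (fun x => conj (ψ x) * χ x) k := by
  rw [L2.inner_def, fourierCoeff]
  refine integral_congr_ae ?_
  filter_upwards [coeFn_mulFourier k ψ] with x hx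
  rw [RCLike.inner_apply', hx, map_mul, fourier_neg, smul_eq_mul, mul_assoc]

theorem integrable_conj_mul (ψ χ : L2Circ) :
    Integrable (fun x => conj (ψ x) * χ x) haarAddCircle := by
  have := L2.integrable_inner (𝕜 := ℂ) ψ χ
  simpa only [RCLike.inner_apply'] using this

/-- Bounded multipliers respect a closed invariant subspace. -/
theorem mul_mem_of_invariant {M : Submodule ℂ L2Circ} (hM : IsClosed (M : Set L2Circ))
    (hinv : ∀ k, ∀ ψ ∈ M, mulFourier k ψ ∈ M) {ψ : L2Circ} (hψ : ψ ∈ M) {φ : Circ → ℂ}
    (hφ : MemLp (fun x => φ x * ψ x) 2 haarAddCircle) : hφ.toLp _ ∈ M := by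
  have : CompleteSpace M := hM.completeSpace_coe
  rw [← M.orthogonal_orthogonal, Submodule.mem_orthogonal]
  intro χ hχ
  have hzero : (fun x => conj (ψ x) * χ x) =ᵐ[haarAddCircle] 0 :=
    ae_zero_of_fourierCoeff (integrable_conj_mul ψ χ) fun k => by
      rw [← inner_mulFourier]
      exact (Submodule.mem_orthogonal _ _).1 hχ _ (hinv k ψ hψ)
  rw [L2.inner_def]
  refine integral_eq_zero_of_ae ?_
  filter_upwards [MemLp.coeFn_toLp hφ, hzero] with x h1 h2
  rw [RCLike.inner_apply', h1]
  have h3 := congrArg conj h2
  simp only [Pi.zero_apply, map_zero, map_mul, Complex.conj_conj] at h3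
  simp only [Pi.zero_apply]
  calc conj (χ x) * (φ x * ψ x) = φ x * (ψ x * conj (χ x)) := by ring
    _ = 0 := by rw [h3, mul_zero]

end Vale.Agent.P130
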