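import Vale.Agent.P130.Factors

/-!
P130: a system with simple Lebesgue spectrum has no two independent nontrivial factors.
-/

noncomputable section

namespace Vale.Agent.P130

open MeasureTheory Filter Topology AddCircle
open scoped ComplexInnerProductSpace ComplexConjugate ENNReal

variable {Z : Type*} [MeasurableSpace Z] {ρ : Measure Z} [IsProbabilityMeasure ρ]
  {T : Equiv.Perm Z} {f : Z → ℂ}

namespace Basic

/-- A factor contributes a nonzero element with bounded model. -/
theorem exists_bounded (hB : Basic ρ T f) {X : Type*} [MeasurableSpace X] {μ : Measure X}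
    [IsProbabilityMeasure μ] {π : Z → X} (hπ : MeasurePreserving π ρ μ) (R : ℤ → X → X)
    (hR : ∀ k, MeasurePreserving (R k) μ μ) (hπR : ∀ k, ∀ᵐ z ∂ρ, π ((T ^ k) z) = R k (π z))
    {A : Set X} (hA : MeasurableSet A) (h₀ : 0 < μ.real A) (h₁ : μ.real A < 1) :
    ∃ (a : X → ℂ) (ha : MemLp a 2 μ) (ψ : L2Circ) (C : ℝ), ∫ x, a x ∂μ = 0 ∧
      hB.V ψ = (ha.comp_measurePreserving hπ).toLp _ ∧ (∀ᵐ x ∂haarAddCircle, ‖ψ x‖ ≤ C) ∧
        0 < ∫ x, ‖a x‖ ^ 2 ∂μ := by
  classical
  set p := μ.real A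
  set a₁ : X → ℂ := fun x => (if x ∈ A then (1 : ℂ) else 0) - p
  have ha₁ : MemLp a₁ 2 μ := MemLp.of_bound
    (((Measurable.ite hA measurable_const measurable_const)).sub_const _).aestronglyMeasurable 2
    (Eventually.of_forall fun x => by
      refine (norm_sub_le _ _).trans ?_
      rw [Complex.norm_real, Real.norm_of_nonneg measureReal_nonneg]
      have : μ.real A ≤ 1 := measureReal_le_one
      split_ifs <;> simp <;> linarith)
  have hind : ∫ x, (if x ∈ A then (1 : ℂ) else 0) ∂μ = p := by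
    rw [show (fun x => if x ∈ A then (1 : ℂ) else 0) = A.indicator fun _ => 1 by
      funext x; simp [Set.indicator], integral_indicator hA, setIntegral_const]
    simp [p]
  have hindi : Integrable (fun x => if x ∈ A then (1 : ℂ) else 0) μ := by
    rw [show (fun x => if x ∈ A then (1 : ℂ) else 0) = A.indicator fun _ => 1 by
      funext x; simp [Set.indicator]]
    exact (integrable_const 1).indicator hA
  have ha₁0 : ∫ x, a₁ x ∂μ = 0 := by
    simp only [a₁]
    rw [integral_sub hindi (integrable_const _), hind]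
    simp
  obtain ⟨ψ₁, hψ₁M, hψ₁⟩ := hB.exists_mem_factorSpace hπ ha₁ ha₁0
  have hψ₁0 : ψ₁ ≠ 0 := by
    intro h
    rw [h, map_zero, eq_comm, toLp_eq_zero_iff] at hψ₁
    have h2 : ∫ x, ‖a₁ x‖ ^ 2 ∂μ = 0 := by
      rw [← integral_mp hπ (g := fun x => ‖a₁ x‖ ^ 2) (ha₁.aestronglyMeasurable.norm.pow 2)]
      refine integral_eq_zero_of_ae ?_
      filter_upwards [hψ₁] with z hz
      simp only [Function.comp_apply, Pi.zero_apply] at hz
      simp [hz]
    have h3 : ∫ x, ‖a₁ x‖ ^ 2 ∂μ = p - p ^ 2 := by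
      have e : ∀ x, ‖a₁ x‖ ^ 2 = A.indicator (fun _ => 1 - 2 * p) x + p ^ 2 := fun x => by
        by_cases hx : x ∈ A
        · rw [Set.indicator_of_mem hx, show a₁ x = ((1 - p : ℝ) : ℂ) by simp [a₁, hx],
            Complex.norm_real, Real.norm_eq_abs, sq_abs]
          ring
        · rw [Set.indicator_of_notMem hx, show a₁ x = ((-p : ℝ) : ℂ) by simp [a₁, hx],
            Complex.norm_real, Real.norm_eq_abs, sq_abs]
          ring
      rw [funext e, integral_add ((integrable_const _).indicator hA) (integrable_const _),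
        integral_indicator hA, setIntegral_const]
      simp only [integral_const, probReal_univ, smul_eq_mul, p]
      ring
    have : 0 < p - p ^ 2 := by nlinarith
    linarith
  obtain ⟨N, hN⟩ : ∃ N : ℕ, ¬ (fun x => (if ‖ψ₁ x‖ ≤ N then (1 : ℂ) else 0) * ψ₁ x)
      =ᵐ[haarAddCircle] 0 := by
    by_contra hall
    push Not at hall
    refine hψ₁0 ?_
    rw [Lp.eq_zero_iff_ae_eq_zero]
    filter_upwards [ae_all_iff.2 hall] with x hx
    obtain ⟨N, hN⟩ := exists_nat_ge ‖ψ₁ x‖
    simpa [hN] using hx N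
  have hm : Measurable fun x => if ‖ψ₁ x‖ ≤ N then (1 : ℂ) else 0 :=
    Measurable.ite (measurableSet_le (Lp.stronglyMeasurable ψ₁).measurable.norm measurable_const)
      measurable_const measurable_const
  have hφ : MemLp (fun x => (if ‖ψ₁ x‖ ≤ N then (1 : ℂ) else 0) * ψ₁ x) 2 haarAddCircle :=
    (Lp.memLp ψ₁).of_le (hm.aestronglyMeasurable.mul (Lp.aestronglyMeasurable ψ₁))
      (Eventually.of_forall fun x => by
        split_ifs <;> simp only [one_mul, zero_mul, norm_zero, le_refl, norm_nonneg])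
  obtain ⟨b, hb, hb0, hbψ⟩ := (hB.mem_factorSpace_iff hπ _).1
    (mul_mem_of_invariant (hB.isClosed_factorSpace hπ) (hB.factorSpace_invariant hπ R hR hπR) hψ₁M hφ)
  refine ⟨b, hb, hφ.toLp _, N, hb0, hbψ, ?_, ?_⟩
  · filter_upwards [hφ.coeFn_toLp] with x hx
    rw [hx]
    split_ifs with h <;> simp [h]
  · rw [← integral_mp hπ (g := fun x => ‖b x‖ ^ 2) (hb.aestronglyMeasurable.norm.pow 2),
      show (fun z => ‖b (π z)‖ ^ 2) = fun z => ‖(b ∘ π) z‖ ^ 2 from rfl,
      ← norm_sq_toLp (hb.comp_measurePreserving hπ)]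
    rw [show (hb.comp_measurePreserving hπ).toLp _ = hB.V (hφ.toLp _) from hbψ.symm,
      LinearIsometry.norm_map]
    have : hφ.toLp _ ≠ 0 := by rw [Ne, toLp_eq_zero_iff]; exact hN
    positivity

end Basic

/-- No two independent nontrivial factors. -/
theorem no_independent_factors {X Y : Type*} [MeasurableSpace X] [MeasurableSpace Y]
    {μ : Measure X} {ν : Measure Y} [IsProbabilityMeasure μ] [IsProbabilityMeasure ν]
    (hB : Basic ρ T f) (S : X ≃ᵐ X) (S' : Y ≃ᵐ Y) (hS : MeasurePreserving S μ μ)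
    (hS' : MeasurePreserving S' ν ν) {π : Z → X} {π' : Z → Y}
    (hπk : ∀ k : ℤ, ∀ᵐ z ∂ρ, π ((T ^ k) z) = (S.toEquiv ^ k : Equiv.Perm X) (π z))
    (hπk' : ∀ k : ℤ, ∀ᵐ z ∂ρ, π' ((T ^ k) z) = (S'.toEquiv ^ k : Equiv.Perm Y) (π' z))
    (hp : MeasurePreserving (fun z => (π z, π' z)) ρ (μ.prod ν))
    {A : Set X} {B : Set Y} (hA : MeasurableSet A) (hA0' : 0 < μ.real A) (hA1' : μ.real A < 1)
    (hBm : MeasurableSet B) (hB0' : 0 < ν.real B) (hB1' : ν.real B < 1) : False := by
  classical
  have hπ : MeasurePreserving π ρ μ := (measurePreserving_fst (μ := μ) (ν := ν)).comp hp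
  have hπ' : MeasurePreserving π' ρ ν := (measurePreserving_snd (μ := μ) (ν := ν)).comp hp
  obtain ⟨a₀, ha₀, ψa, Ca, ha₀0, hψa, hCa, hapos⟩ :=
    hB.exists_bounded hπ (fun k => ⇑(S.toEquiv ^ k : Equiv.Perm X))
      (fun k => measurePreserving_zpow S hS k) hπk hA hA0' hA1'
  obtain ⟨b₀, hb₀, ψb, Cb, hb₀0, hψb, hCb, hbpos⟩ :=
    hB.exists_bounded hπ' (fun k => ⇑(S'.toEquiv ^ k : Equiv.Perm Y))
      (fun k => measurePreserving_zpow S' hS' k) hπk' hBm hB0' hB1'
  set h : Z → ℂ := fun z => a₀ (π z) * b₀ (π' z)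
  have hh2 : MemLp (fun p : X × Y => a₀ p.1 * b₀ p.2) 2 (μ.prod ν) := by
    refine (memLp_two_iff_integrable_sq_norm (f := fun p : X × Y => a₀ p.1 * b₀ p.2)
      ((ha₀.aestronglyMeasurable.comp_measurePreserving measurePreserving_fst).mul
        (hb₀.aestronglyMeasurable.comp_measurePreserving measurePreserving_snd))).2 ?_
    simp only [norm_mul, mul_pow]
    exact ha₀.integrable_norm_pow'.mul_prod hb₀.integrable_norm_pow'
  have hh : MemLp h 2 ρ := hh2.comp_measurePreserving hp
  obtain ⟨χ, hχ⟩ := hB.rep hh (by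
    rw [show ∫ z, h z ∂ρ = ∫ p, a₀ p.1 * b₀ p.2 ∂μ.prod ν from
      integral_mp hp hh2.aestronglyMeasurable, integral_prod_mul, ha₀0, zero_mul])
  -- the correlations of the product
  set ca : ℤ → ℂ := fun k => fourierCoeff (fun x => conj (ψa x) * ψa x) k
  set cb : ℤ → ℂ := fun k => fourierCoeff (fun x => conj (ψb x) * ψb x) k
  have hca : ∀ k, ∫ x, conj (a₀ ((S.toEquiv ^ k : Equiv.Perm X) x)) * a₀ x ∂μ = ca k := fun k => by
    simp only [ca]
    rw [← hB.corr _ _ hψa hψa k, ← integral_mp hπ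
      (g := fun x => conj (a₀ ((S.toEquiv ^ k : Equiv.Perm X) x)) * a₀ x)
      ((Complex.continuous_conj.comp_aestronglyMeasurable
        (ha₀.comp_measurePreserving (measurePreserving_zpow S hS k)).aestronglyMeasurable).mul
          ha₀.aestronglyMeasurable)]
    refine integral_congr_ae ?_
    filter_upwards [hπk k] with z hz
    simp only [Function.comp_apply, hz]
  have hcb : ∀ k, ∫ y, conj (b₀ ((S'.toEquiv ^ k : Equiv.Perm Y) y)) * b₀ y ∂ν = cb k := fun k => by
    simp only [cb]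
    rw [← hB.corr _ _ hψb hψb k, ← integral_mp hπ'
      (g := fun y => conj (b₀ ((S'.toEquiv ^ k : Equiv.Perm Y) y)) * b₀ y)
      ((Complex.continuous_conj.comp_aestronglyMeasurable
        (hb₀.comp_measurePreserving (measurePreserving_zpow S' hS' k)).aestronglyMeasurable).mul
          hb₀.aestronglyMeasurable)]
    refine integral_congr_ae ?_
    filter_upwards [hπk' k] with z hz
    simp only [Function.comp_apply, hz]
  have hcc : ∀ k, fourierCoeff (fun x => conj (χ x) * χ x) k = ca k * cb k := fun k => by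
    rw [← hB.corr hh hh hχ hχ k, ← hca k, ← hcb k, ← integral_prod_mul, ← integral_mp hp
      (g := fun p : X × Y => conj (a₀ ((S.toEquiv ^ k : Equiv.Perm X) p.1)) * a₀ p.1 *
        (conj (b₀ ((S'.toEquiv ^ k : Equiv.Perm Y) p.2)) * b₀ p.2))
      (((Complex.continuous_conj.comp_aestronglyMeasurable
        (ha₀.comp_measurePreserving (measurePreserving_zpow S hS k)).aestronglyMeasurable).mul
          ha₀.aestronglyMeasurable).comp_measurePreserving measurePreserving_fst |>.mul
        (((Complex.continuous_conj.comp_aestronglyMeasurable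
        (hb₀.comp_measurePreserving (measurePreserving_zpow S' hS' k)).aestronglyMeasurable).mul
          hb₀.aestronglyMeasurable).comp_measurePreserving measurePreserving_snd))]
    refine integral_congr_ae ?_
    filter_upwards [hπk k, hπk' k] with z h1 h2
    simp only [h, h1, h2, map_mul]
    ring
  have hsum2 : ∀ {ψ : L2Circ} {C : ℝ}, (∀ᵐ x ∂haarAddCircle, ‖ψ x‖ ≤ C) →
      Summable fun k => ‖fourierCoeff (fun x => conj (ψ x) * ψ x) k‖ ^ 2 := fun {ψ C} hC => by
    have hm : MemLp (fun x => conj (ψ x) * ψ x) 2 (haarAddCircle : Measure Circ) :=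
      MemLp.of_bound (integrable_conj_mul ψ ψ).aestronglyMeasurable (C * C) (by
        filter_upwards [hC] with x hx
        rw [norm_mul, Complex.norm_conj]
        exact mul_le_mul hx hx (norm_nonneg _) ((norm_nonneg _).trans hx))
    simpa [fourierCoeff_congr_ae hm.coeFn_toLp] using (hasSum_sq_fourierCoeff (hm.toLp _)).summable
  have hsum : Summable fun k => ‖ca k * cb k‖ := by
    refine Summable.of_nonneg_of_le (fun k => norm_nonneg _) (fun k => ?_)
      ((hsum2 hCa).add (hsum2 hCb))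
    rw [norm_mul]
    show ‖ca k‖ * ‖cb k‖ ≤ ‖ca k‖ ^ 2 + ‖cb k‖ ^ 2
    nlinarith [sq_nonneg (‖ca k‖ - ‖cb k‖), norm_nonneg (ca k), norm_nonneg (cb k)]
  set G : C(Circ, ℂ) := ∑' k, (ca k * cb k) • fourier k
  have hGs : Summable fun k => (ca k * cb k) • (fourier k : C(Circ, ℂ)) := by
    refine Summable.of_norm ?_
    simpa [norm_smul, fourier_norm] using hsum
  have hG : ∀ n, fourierCoeff G n = ca n * cb n := fun n => by
    have h1 : HasSum (fun k => (ca k * cb k) • fourierLp 2 k)
        (ContinuousMap.toLp (E := ℂ) 2 (haarAddCircle : Measure Circ) ℂ G) := by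
      simpa [map_smul] using hGs.hasSum.mapL (ContinuousMap.toLp (E := ℂ) 2 haarAddCircle ℂ)
    have h2 := h1.mapL (innerSL ℂ (fourierLp (T := 1) 2 n))
    simp only [innerSL_apply_apply, inner_smul_right,
      orthonormal_iff_ite.1 orthonormal_fourier, mul_ite, mul_one, mul_zero] at h2
    rw [← fourierCoeff_toLp, ← fourierBasis_repr, HilbertBasis.repr_apply_apply, coe_fourierBasis]
    exact h2.unique ((hasSum_ite_eq n (ca n * cb n)).congr_fun fun k => by
      rcases eq_or_ne k n with rfl | h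
      · simp
      · simp [h, Ne.symm h])
  have hGχ : (fun x => conj (χ x) * χ x - G x) =ᵐ[haarAddCircle] 0 := by
    have hGi : Integrable G haarAddCircle :=
      G.continuous.integrable_of_hasCompactSupport (HasCompactSupport.of_compactSpace _)
    refine ae_zero_of_fourierCoeff ((integrable_conj_mul χ χ).sub hGi) fun n => ?_
    have : fourierCoeff (fun x => conj (χ x) * χ x - G x) n =
        fourierCoeff (fun x => conj (χ x) * χ x) n - fourierCoeff G n := by
      simp only [fourierCoeff, smul_sub]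
      exact integral_sub ((integrable_conj_mul χ χ).fourier_smul _) (hGi.fourier_smul _)
    rw [this, hcc, hG, sub_self]
  obtain ⟨x₀, hx₀⟩ : ∃ x₀, G x₀ ≠ 0 := by
    by_contra h
    push Not at h
    have h0 := hG 0
    rw [show fourierCoeff G 0 = 0 by simp [fourierCoeff, h], ← hca, ← hcb] at h0
    simp only [zpow_zero, Equiv.Perm.coe_one, id_eq] at h0
    rw [show (∫ x, conj (a₀ x) * a₀ x ∂μ) = ((∫ x, ‖a₀ x‖ ^ 2 ∂μ : ℝ) : ℂ) by
        rw [← integral_complex_ofReal]; simp only [Complex.conj_mul', Complex.ofReal_pow],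
      show (∫ y, conj (b₀ y) * b₀ y ∂ν) = ((∫ y, ‖b₀ y‖ ^ 2 ∂ν : ℝ) : ℂ) by
        rw [← integral_complex_ofReal]; simp only [Complex.conj_mul', Complex.ofReal_pow],
      ← Complex.ofReal_mul, eq_comm, Complex.ofReal_eq_zero] at h0
    nlinarith
  -- the arc where every element of the first factor vanishes
  have hclosed : IsClosed ((fourier 1 : C(Circ, ℂ)) '' {x | G x = 0}) :=
    ((isClosed_eq G.continuous continuous_const).isCompact.image
      (fourier 1).continuous).isClosed
  have hnot : fourier 1 x₀ ∉ (fourier 1 : C(Circ, ℂ)) '' {x | G x = 0} := by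
    rintro ⟨x, hx, hxe⟩
    simp only [fourier_one] at hxe
    exact hx₀ (injective_toCircle one_ne_zero (Subtype.val_injective hxe) ▸ hx)
  obtain ⟨δ, hδ, hball⟩ := Metric.isOpen_iff.1 hclosed.isOpen_compl _ hnot
  have hgap : ∀ x, G x = 0 → δ ≤ ‖fourier 1 x - fourier 1 x₀‖ := fun x hx => by
    by_contra hlt
    push Not at hlt
    exact hball (show fourier 1 x ∈ Metric.ball (fourier 1 x₀) δ by
      rwa [Metric.mem_ball, dist_eq_norm]) ⟨x, hx, rfl⟩
  have hl : ‖fourier 1 x₀‖ = 1 := by rw [fourier_apply, Circle.norm_coe]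
  have herg : ∀ k, k ≠ 0 → ∀ C, MeasurableSet C → (⇑S)^[k] ⁻¹' C =ᵐ[μ] C →
      μ.real C = 0 ∨ μ.real C = 1 := by
    intro k hk C hC hfix
    set g : X → ℂ := fun x => (if x ∈ C then (1 : ℂ) else 0) - (μ.real C : ℂ)
    have hgm : MemLp g 2 μ := MemLp.of_bound
      (((Measurable.ite hC measurable_const measurable_const)).sub_const _).aestronglyMeasurable 2
      (Eventually.of_forall fun x => by
        refine (norm_sub_le _ _).trans ?_
        rw [Complex.norm_real, Real.norm_of_nonneg measureReal_nonneg]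
        have : μ.real C ≤ 1 := measureReal_le_one
        split_ifs <;> simp <;> linarith)
    have hind : (fun x => if x ∈ C then (1 : ℂ) else 0) = C.indicator fun _ => 1 := by
      funext x; simp [Set.indicator]
    have hg0 : ∫ x, g x ∂μ = 0 := by
      simp only [g]
      rw [integral_sub (f := fun x => if x ∈ C then (1 : ℂ) else 0)
        (by rw [hind]; exact (integrable_const 1).indicator hC) (integrable_const _), hind,
        integral_indicator hC, setIntegral_const]
      simp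
    have hz := hB.fixed_eq_zero (k := (k : ℤ)) (by exact_mod_cast hk)
      (g := fun z => g (π z)) (hgm.comp_measurePreserving hπ)
      (by rw [← hg0]; exact integral_mp hπ hgm.aestronglyMeasurable) (by
        have h1 := hπ.quasiMeasurePreserving.ae (ae_iff.2 (by
          rw [show {x | ¬ (((⇑S)^[k] x ∈ C) ↔ x ∈ C)} = symmDiff ((⇑S)^[k] ⁻¹' C) C by
            ext x; simp [Set.mem_symmDiff]; tauto]
          exact measure_symmDiff_eq_zero_iff.2 hfix))
        filter_upwards [h1, hπk (k : ℤ)] with z hz hk'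
        simp only [hk']
        simp only [zpow_natCast, Equiv.Perm.coe_pow, g]
        rw [show ((⇑S.toEquiv)^[k]) (π z) = (⇑S)^[k] (π z) from rfl]
        simp only [hz])
    have hz2 : ∫ x, ‖g x‖ ^ 2 ∂μ = 0 := by
      rw [← integral_mp hπ (g := fun x => ‖g x‖ ^ 2) (hgm.aestronglyMeasurable.norm.pow 2)]
      refine integral_eq_zero_of_ae ?_
      filter_upwards [hz] with z hz
      simp only [Pi.zero_apply] at hz
      simp [hz]
    have e : ∀ x, ‖g x‖ ^ 2 = C.indicator (fun _ => 1 - 2 * μ.real C) x + μ.real C ^ 2 := fun x => by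
      by_cases hx : x ∈ C
      · rw [Set.indicator_of_mem hx, show g x = ((1 - μ.real C : ℝ) : ℂ) by simp [g, hx],
          Complex.norm_real, Real.norm_eq_abs, sq_abs]
        ring
      · rw [Set.indicator_of_notMem hx, show g x = ((-μ.real C : ℝ) : ℂ) by simp [g, hx],
          Complex.norm_real, Real.norm_eq_abs, sq_abs]
        ring
    rw [funext e, integral_add ((integrable_const _).indicator hC) (integrable_const _),
      integral_indicator hC, setIntegral_const] at hz2
    simp only [integral_const, probReal_univ, smul_eq_mul] at hz2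
    rcases mul_eq_zero.1 (show μ.real C * (1 - μ.real C) = 0 by linarith) with h' | h'
    · exact Or.inl h'
    · exact Or.inr (by linarith)
  obtain ⟨a, ha, ha0, hlt⟩ := exists_approx_eigen hS herg hA hA0' hA1' hl hδ
  have hag := ha.comp_measurePreserving hπ
  obtain ⟨ψ, hψ⟩ := hB.rep hag (by
    rw [← ha0]; exact integral_mp hπ ha.aestronglyMeasurable)
  have hcross : (fun x => conj (ψ x) * χ x) =ᵐ[haarAddCircle] 0 := by
    refine ae_zero_of_fourierCoeff (integrable_conj_mul ψ χ) fun k => ?_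
    rw [← hB.corr hag hh hψ hχ k]
    rw [show (∫ z, conj ((a ∘ π) ((T ^ k) z)) * h z ∂ρ) = ∫ p : X × Y,
        (conj (a ((S.toEquiv ^ k : Equiv.Perm X) p.1)) * a₀ p.1) * b₀ p.2 ∂μ.prod ν by
      rw [← integral_mp hp (g := fun p : X × Y =>
          (conj (a ((S.toEquiv ^ k : Equiv.Perm X) p.1)) * a₀ p.1) * b₀ p.2)
        ((((Complex.continuous_conj.comp_aestronglyMeasurable
        (ha.comp_measurePreserving (measurePreserving_zpow S hS k)).aestronglyMeasurable).mul
          ha₀.aestronglyMeasurable).comp_measurePreserving measurePreserving_fst).mul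
          (hb₀.aestronglyMeasurable.comp_measurePreserving measurePreserving_snd))]
      refine integral_congr_ae ?_
      filter_upwards [hπk k] with z hz
      simp only [Function.comp_apply, hz, h]
      ring,
      integral_prod_mul (fun x => conj (a ((S.toEquiv ^ k : Equiv.Perm X) x)) * a₀ x) b₀, hb₀0,
      mul_zero]
  have hgapψ : ∀ᵐ x ∂haarAddCircle,
      δ ^ 2 * ‖ψ x‖ ^ 2 ≤ ‖(mulFourier 1 ψ - fourier 1 x₀ • ψ) x‖ ^ 2 := by
    filter_upwards [hcross, hGχ, Lp.coeFn_sub (mulFourier 1 ψ) (fourier 1 x₀ • ψ),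
      Lp.coeFn_smul (fourier 1 x₀) ψ, coeFn_mulFourier 1 ψ] with x h1 h2 h3 h4 h5
    rw [h3, Pi.sub_apply, h4, h5, Pi.smul_apply, smul_eq_mul, ← sub_mul, norm_mul, mul_pow]
    by_cases hψx : ψ x = 0
    · simp [hψx]
    · have hχx : χ x = 0 := by simpa [hψx] using h1
      simp only [hχx, mul_zero, zero_sub, Pi.zero_apply, neg_eq_zero] at h2
      gcongr
      exact hgap x h2
  have hVd : hB.V (mulFourier 1 ψ - fourier 1 x₀ • ψ) =
      ((hag.comp_measurePreserving (hB.mp 1)).sub (hag.const_smul (fourier 1 x₀))).toLp _ := by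
    rw [MemLp.toLp_sub (hag.comp_measurePreserving (hB.mp 1)) (hag.const_smul (fourier 1 x₀)),
      MemLp.toLp_const_smul _ hag, map_sub, map_smul, ← hB.U_V, hψ, hB.U_toLp]
  have hnorm : δ ^ 2 * ‖ψ‖ ^ 2 ≤ ‖mulFourier 1 ψ - fourier 1 x₀ • ψ‖ ^ 2 := by
    have e : ∀ φ : L2Circ, ‖φ‖ ^ 2 = ∫ x, ‖φ x‖ ^ 2 ∂haarAddCircle := fun φ => by
      rw [← norm_sq_toLp (Lp.memLp φ), Lp.toLp_coeFn]
    rw [e, e, ← integral_const_mul]
    exact integral_mono_ae ((Lp.memLp ψ).integrable_norm_pow'.const_mul _)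
      (Lp.memLp _).integrable_norm_pow' hgapψ
  rw [← hB.V.norm_map, ← hB.V.norm_map (mulFourier 1 ψ - fourier 1 x₀ • ψ), hψ, hVd, norm_sq_toLp,
    norm_sq_toLp] at hnorm
  have e1 : ∫ z, ‖(a ∘ π) z‖ ^ 2 ∂ρ = ∫ x, ‖a x‖ ^ 2 ∂μ :=
    integral_mp hπ (ha.aestronglyMeasurable.norm.pow 2)
  have e2 : ∫ z, ‖((((a ∘ π) ∘ ⇑(T ^ (1 : ℤ))) - (fourier 1 x₀ : ℂ) • (a ∘ π)) : Z → ℂ) z‖ ^ 2 ∂ρ
      = ∫ x, ‖a (S x) - fourier 1 x₀ * a x‖ ^ 2 ∂μ := by
    rw [← integral_mp hπ (g := fun x => ‖a (S x) - fourier 1 x₀ * a x‖ ^ 2)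
      (((ha.comp_measurePreserving hS).aestronglyMeasurable.sub
        (ha.aestronglyMeasurable.const_mul _)).norm.pow 2)]
    refine integral_congr_ae ?_
    filter_upwards [hπk 1] with z hz
    simp only [Pi.sub_apply, Pi.smul_apply, smul_eq_mul, Function.comp_apply, hz]
    rfl
  rw [e1, e2] at hnorm
  linarith

/-- Two nontrivial factors share a nontrivial set. -/
theorem exists_common_set {X Y : Type*} [MeasurableSpace X] [MeasurableSpace Y]
    {μ : Measure X} {ν : Measure Y} [IsProbabilityMeasure μ] [IsProbabilityMeasure ν]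
    (hB : Basic ρ T f) (S : X ≃ᵐ X) (S' : Y ≃ᵐ Y) (hS : MeasurePreserving S μ μ)
    (hS' : MeasurePreserving S' ν ν) {π : Z → X} {π' : Z → Y} (hπ : MeasurePreserving π ρ μ)
    (hπ' : MeasurePreserving π' ρ ν)
    (hπk : ∀ k : ℤ, ∀ᵐ z ∂ρ, π ((T ^ k) z) = (S.toEquiv ^ k : Equiv.Perm X) (π z))
    (hπk' : ∀ k : ℤ, ∀ᵐ z ∂ρ, π' ((T ^ k) z) = (S'.toEquiv ^ k : Equiv.Perm Y) (π' z))
    {A : Set X} {B : Set Y} (hA : MeasurableSet A) (hA0 : 0 < μ A) (hA1 : μ A < 1)
    (hBm : MeasurableSet B) (hB0 : 0 < ν B) (hB1 : ν B < 1) :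
    ∃ (A' : Set X) (B' : Set Y), MeasurableSet A' ∧ MeasurableSet B' ∧
      ρ (symmDiff (π ⁻¹' A') (π' ⁻¹' B')) = 0 ∧ 0 < μ A' ∧ μ A' < 1 := by
  by_contra hno
  refine no_independent_factors hB S S' hS hS' hπk hπk'
    (hB.indep_of_no_common hπ hπ' _ (fun k => measurePreserving_zpow S hS k) hπk _
      (fun k => measurePreserving_zpow S' hS' k) hπk' fun A' B' hA' hB' h0 => ?_)
    hA (ENNReal.toReal_pos hA0.ne' (measure_ne_top _ _)) ?_
    hBm (ENNReal.toReal_pos hB0.ne' (measure_ne_top _ _)) ?_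
  · by_contra h
    push Not at h
    exact hno ⟨A', B', hA', hB', h0, h.1.bot_lt, lt_of_le_of_ne prob_le_one h.2⟩
  · simpa [Measure.real] using
      (ENNReal.toReal_lt_toReal (measure_ne_top _ _) ENNReal.one_ne_top).2 hA1
  · simpa [Measure.real] using
      (ENNReal.toReal_lt_toReal (measure_ne_top _ _) ENNReal.one_ne_top).2 hB1

end Vale.Agent.P130
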