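import Vale.Agent.P130.Product

/-!
P130: factor subspaces in the circle model. Two factors of a system with simple Lebesgue spectrum
and without a common nontrivial set are independent.
-/

noncomputable section

namespace Vale.Agent.P130

open MeasureTheory Filter Topology AddCircle
open scoped ComplexInnerProductSpace ComplexConjugate ENNReal

variable {Z : Type*} [MeasurableSpace Z] {ρ : Measure Z} [IsProbabilityMeasure ρ]

omit [IsProbabilityMeasure ρ] in
/-- An equivariant map stays equivariant for all powers. -/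
theorem ae_equivariant_zpow {X : Type*} [MeasurableSpace X] (T : Z ≃ᵐ Z) (S : X ≃ᵐ X)
    (hT : MeasurePreserving T ρ ρ) {π : Z → X} (hπT : ∀ᵐ z ∂ρ, π (T z) = S (π z)) (k : ℤ) :
    ∀ᵐ z ∂ρ, π ((T.toEquiv ^ k : Equiv.Perm Z) z) = (S.toEquiv ^ k : Equiv.Perm X) (π z) := by
  have hinv : ∀ᵐ z ∂ρ, π (T.symm z) = S.symm (π z) := by
    filter_upwards [(hT.symm T).quasiMeasurePreserving.ae hπT] with z hz
    rw [T.apply_symm_apply] at hz
    rw [hz, S.symm_apply_apply]
  induction k using Int.induction_on with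
  | zero => simp
  | succ k ih =>
    filter_upwards [hT.quasiMeasurePreserving.ae ih, hπT] with z h1 h2
    simp only [zpow_add_one, Equiv.Perm.mul_apply]
    rw [show (T.toEquiv : Equiv.Perm Z) z = T z from rfl, h1, h2]
    rfl
  | pred k ih =>
    filter_upwards [(hT.symm T).quasiMeasurePreserving.ae ih, hinv] with z h1 h2
    simp only [zpow_sub_one, Equiv.Perm.mul_apply]
    rw [show ((T.toEquiv : Equiv.Perm Z)⁻¹) z = T.symm z from rfl, h1, h2]
    rfl

variable {T : Equiv.Perm Z} {f : Z → ℂ} {X : Type*} [MeasurableSpace X] {μ : Measure X}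
  [IsProbabilityMeasure μ] {π : Z → X}

/-- The constant one. -/
def oneLp (μ : Measure X) [IsProbabilityMeasure μ] : Lp ℂ 2 μ :=
  (memLp_const (1 : ℂ) : MemLp (fun _ : X => (1 : ℂ)) 2 μ).toLp _

theorem mem_orth_one {b : X → ℂ} (hb : MemLp b 2 μ) :
    hb.toLp b ∈ (ℂ ∙ oneLp μ)ᗮ ↔ ∫ x, b x ∂μ = 0 := by
  rw [Submodule.mem_orthogonal_singleton_iff_inner_right, oneLp, inner_toLp]
  simp

namespace Basic

/-- The model of the mean zero functions of a factor. -/
def factorSpace (hB : Basic ρ T f) (hπ : MeasurePreserving π ρ μ) : Submodule ℂ L2Circ :=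
  (((ℂ ∙ oneLp μ)ᗮ).map (Lp.compMeasurePreservingₗᵢ ℂ (p := 2) π hπ (E := ℂ)).toLinearMap).comap
    hB.V.toLinearMap

omit [IsProbabilityMeasure ρ] in
theorem isClosed_factorSpace (hB : Basic ρ T f) (hπ : MeasurePreserving π ρ μ) :
    IsClosed (hB.factorSpace hπ : Set L2Circ) :=
  IsClosed.preimage hB.V.continuous
    ((Lp.compMeasurePreservingₗᵢ ℂ (p := 2) π hπ (E := ℂ)).isometry.isClosedEmbedding.isClosedMap _
      (Submodule.isClosed_orthogonal _))

omit [IsProbabilityMeasure ρ] in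
theorem mem_factorSpace_iff (hB : Basic ρ T f) (hπ : MeasurePreserving π ρ μ) (ψ : L2Circ) :
    ψ ∈ hB.factorSpace hπ ↔ ∃ (a : X → ℂ) (ha : MemLp a 2 μ), ∫ x, a x ∂μ = 0 ∧
      hB.V ψ = (ha.comp_measurePreserving hπ).toLp _ := by
  constructor
  · rintro ⟨b, hb, hbψ⟩
    refine ⟨b, Lp.memLp b, (mem_orth_one (Lp.memLp b)).1 (by rwa [Lp.toLp_coeFn]), ?_⟩
    rw [show hB.V ψ = Lp.compMeasurePreservingₗᵢ ℂ (p := 2) π hπ (E := ℂ) b from hbψ.symm]
    conv_lhs => rw [← Lp.toLp_coeFn b (Lp.memLp b)]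
    rfl
  · rintro ⟨a, ha, h0, hψ⟩
    exact ⟨ha.toLp a, (mem_orth_one ha).2 h0, hψ.symm⟩

omit [IsProbabilityMeasure ρ] in
/-- The model of a factor is invariant under the monomials. -/
theorem factorSpace_invariant (hB : Basic ρ T f) (hπ : MeasurePreserving π ρ μ) (R : ℤ → X → X)
    (hR : ∀ k, MeasurePreserving (R k) μ μ) (hπR : ∀ k, ∀ᵐ z ∂ρ, π ((T ^ k) z) = R k (π z))
    (k : ℤ) (ψ : L2Circ) (hψ : ψ ∈ hB.factorSpace hπ) : mulFourier k ψ ∈ hB.factorSpace hπ := by
  obtain ⟨a, ha, h0, hψ⟩ := (hB.mem_factorSpace_iff hπ ψ).1 hψ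
  refine (hB.mem_factorSpace_iff hπ _).2 ⟨_, ha.comp_measurePreserving (hR k), ?_, ?_⟩
  · rw [← h0]
    exact integral_mp (hR k) ha.aestronglyMeasurable
  · rw [← hB.U_V, hψ, hB.U_toLp]
    refine MemLp.toLp_congr _ _ ?_
    filter_upwards [hπR k] with z hz
    simp only [Function.comp_apply, hz]

/-- The centred indicator of a set has a model in the factor space. -/
theorem exists_mem_factorSpace (hB : Basic ρ T f) (hπ : MeasurePreserving π ρ μ)
    {a : X → ℂ} (ha : MemLp a 2 μ) (h0 : ∫ x, a x ∂μ = 0) :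
    ∃ ψ ∈ hB.factorSpace hπ, hB.V ψ = (ha.comp_measurePreserving hπ).toLp _ := by
  obtain ⟨ψ, hψ⟩ := hB.rep (ha.comp_measurePreserving hπ)
    (by rw [← h0]; exact integral_mp hπ ha.aestronglyMeasurable)
  exact ⟨ψ, (hB.mem_factorSpace_iff hπ ψ).2 ⟨a, ha, h0, hψ⟩, hψ⟩

end Basic

/-- The indicator of a set minus its measure. -/
def cind (μ : Measure X) (A : Set X) (x : X) : ℂ := A.indicator (fun _ => (1 : ℂ)) x - (μ.real A : ℂ)

theorem memLp_cind {A : Set X} (hA : MeasurableSet A) : MemLp (cind μ A) 2 μ :=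
  ((memLp_const (1 : ℂ)).indicator hA).sub (memLp_const _)

theorem integral_cind {A : Set X} (hA : MeasurableSet A) : ∫ x, cind μ A x ∂μ = 0 := by
  unfold cind
  rw [integral_sub ((integrable_const (1 : ℂ)).indicator hA) (integrable_const _),
    integral_indicator hA, setIntegral_const]
  simp

variable {Y : Type*} [MeasurableSpace Y] {ν : Measure Y} [IsProbabilityMeasure ν] {π' : Z → Y}

omit [IsProbabilityMeasure ρ] [IsProbabilityMeasure ν] in
/-- Functions of two factors that agree almost everywhere vanish, if the factors share no set. -/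
theorem ae_zero_of_no_common (hπ : MeasurePreserving π ρ μ) (hπ' : MeasurePreserving π' ρ ν)
    (hno : ∀ A B, MeasurableSet A → MeasurableSet B →
      ρ (symmDiff (π ⁻¹' A) (π' ⁻¹' B)) = 0 → μ A = 0 ∨ μ A = 1)
    {a : X → ℂ} {b : Y → ℂ} (ha : MemLp a 2 μ) (hb : MemLp b 2 ν) (h0 : ∫ x, a x ∂μ = 0)
    (hab : (fun z => a (π z)) =ᵐ[ρ] fun z => b (π' z)) : a =ᵐ[μ] 0 := by
  obtain ⟨a', ha'm, haa'⟩ := ha.aestronglyMeasurable.aemeasurable
  obtain ⟨b', hb'm, hbb'⟩ := hb.aestronglyMeasurable.aemeasurable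
  have hab' : ∀ᵐ z ∂ρ, a' (π z) = b' (π' z) := by
    filter_upwards [hab, hπ.quasiMeasurePreserving.ae haa', hπ'.quasiMeasurePreserving.ae hbb']
      with z h1 h2 h3
    rw [← h2, h1, h3]
  have hconst : ∀ U : Set ℂ, MeasurableSet U → (∀ᵐ x ∂μ, a' x ∈ U) ∨ ∀ᵐ x ∂μ, a' x ∉ U := by
    intro U hU
    rcases hno (a' ⁻¹' U) (b' ⁻¹' U) (ha'm hU) (hb'm hU) (by
      rw [measure_symmDiff_eq_zero_iff]
      filter_upwards [hab'] with z hz
      exact propext (by show a' (π z) ∈ U ↔ b' (π' z) ∈ U; rw [hz])) with h | h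
    · exact Or.inr (by rw [ae_iff]; simpa [Set.preimage] using h)
    · refine Or.inl ?_
      rw [ae_iff, show {x | ¬ a' x ∈ U} = (a' ⁻¹' U)ᶜ from rfl,
        prob_compl_eq_zero_iff (ha'm hU)]
      exact h
  obtain ⟨c, hc⟩ : ∃ c, a' =ᵐ[μ] fun _ => c :=
    Filter.exists_eventuallyEq_const_of_forall_separating (l := ae μ) MeasurableSet hconst
  have h1 : ∫ x, a x ∂μ = c := by
    rw [integral_congr_ae (show a =ᵐ[μ] fun _ => c from EventuallyEq.trans haa' hc)]
    simp
  rw [h0] at h1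
  exact EventuallyEq.trans haa' (hc.trans (Eventually.of_forall fun _ => h1.symm))

namespace Basic

/-- Two factors without a common nontrivial set are independent. -/
theorem indep_of_no_common (hB : Basic ρ T f) (hπ : MeasurePreserving π ρ μ)
    (hπ' : MeasurePreserving π' ρ ν) (R : ℤ → X → X) (hR : ∀ k, MeasurePreserving (R k) μ μ)
    (hπR : ∀ k, ∀ᵐ z ∂ρ, π ((T ^ k) z) = R k (π z)) (R' : ℤ → Y → Y)
    (hR' : ∀ k, MeasurePreserving (R' k) ν ν)
    (hπR' : ∀ k, ∀ᵐ z ∂ρ, π' ((T ^ k) z) = R' k (π' z))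
    (hno : ∀ A B, MeasurableSet A → MeasurableSet B →
      ρ (symmDiff (π ⁻¹' A) (π' ⁻¹' B)) = 0 → μ A = 0 ∨ μ A = 1) :
    MeasurePreserving (fun z => (π z, π' z)) ρ (μ.prod ν) := by
  have horth : ∀ ψ ∈ hB.factorSpace hπ, ∀ χ ∈ hB.factorSpace hπ', ⟪ψ, χ⟫ = 0 := by
    intro ψ hψ χ hχ
    -- the part of one model on the support of the other lies in both spaces
    have hs : MeasurableSet {x | χ x ≠ 0} :=
      ((Lp.stronglyMeasurable χ).measurable (measurableSet_singleton 0)).compl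
    have hm : Measurable fun x => if χ x ≠ 0 then (1 : ℂ) else 0 :=
      Measurable.ite hs measurable_const measurable_const
    have hφ : MemLp (fun x => (if χ x ≠ 0 then (1 : ℂ) else 0) * ψ x) 2 haarAddCircle :=
      (Lp.memLp ψ).of_le (hm.aestronglyMeasurable.mul (Lp.aestronglyMeasurable ψ))
        (Eventually.of_forall fun x => by
          split_ifs <;> simp only [one_mul, zero_mul, norm_zero, le_refl, norm_nonneg])
    have heq : (fun x => ψ x * (χ x)⁻¹ * χ x) =
        fun x => (if χ x ≠ 0 then (1 : ℂ) else 0) * ψ x := by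
      funext x
      by_cases h : χ x = 0 <;> simp [h]
    have h1 := mul_mem_of_invariant (hB.isClosed_factorSpace hπ)
      (hB.factorSpace_invariant hπ R hR hπR) hψ hφ
    have hφ' : MemLp (fun x => ψ x * (χ x)⁻¹ * χ x) 2 haarAddCircle := heq ▸ hφ
    have h2 := mul_mem_of_invariant (hB.isClosed_factorSpace hπ')
      (hB.factorSpace_invariant hπ' R' hR' hπR') hχ (φ := fun x => ψ x * (χ x)⁻¹) hφ'
    rw [show hφ'.toLp _ = hφ.toLp _ from MemLp.toLp_congr _ _ (Eventually.of_forall fun x =>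
      congrFun heq x)] at h2
    obtain ⟨a, ha, ha0, hVa⟩ := (hB.mem_factorSpace_iff hπ _).1 h1
    obtain ⟨b, hb, hb0, hVb⟩ := (hB.mem_factorSpace_iff hπ' _).1 h2
    have hab := ((ha.comp_measurePreserving hπ).toLp_eq_toLp_iff
      (hb.comp_measurePreserving hπ')).1 (hVa.symm.trans hVb)
    have hz := ae_zero_of_no_common hπ hπ' hno ha hb ha0 hab
    have hφ0 : hφ.toLp _ = 0 := by
      apply hB.V.injective
      rw [map_zero, hVa, toLp_eq_zero_iff]
      exact hπ.quasiMeasurePreserving.ae hz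
    rw [toLp_eq_zero_iff] at hφ0
    rw [L2.inner_def]
    refine integral_eq_zero_of_ae ?_
    filter_upwards [hφ0] with x hx
    by_cases h : χ x = 0
    · simp [h]
    · simp only [h, ne_eq, not_false_eq_true, if_true, one_mul, Pi.zero_apply] at hx
      simp [hx]
  have hm : Measurable fun z => (π z, π' z) := hπ.measurable.prodMk hπ'.measurable
  refine ⟨hm, (Measure.prod_eq fun A B hA hBm => ?_).symm⟩
  rw [Measure.map_apply hm (hA.prod hBm)]
  obtain ⟨ψ, hψM, hψ⟩ := hB.exists_mem_factorSpace hπ (memLp_cind hA) (integral_cind hA)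
  obtain ⟨χ, hχM, hχ⟩ := hB.exists_mem_factorSpace hπ' (memLp_cind hBm) (integral_cind hBm)
  have h0 := horth ψ hψM χ hχM
  rw [← hB.V.inner_map_map, hψ, hχ, inner_toLp] at h0
  set P := π ⁻¹' A
  set Q := π' ⁻¹' B
  have hP : MeasurableSet P := hπ.measurable hA
  have hQ : MeasurableSet Q := hπ'.measurable hBm
  have hpA : ρ.real P = μ.real A := by
    simp only [Measure.real, P, hπ.measure_preimage hA.nullMeasurableSet]
  have hqB : ρ.real Q = ν.real B := by
    simp only [Measure.real, Q, hπ'.measure_preimage hBm.nullMeasurableSet]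
  set p : ℂ := ((μ.real A : ℝ) : ℂ)
  set q : ℂ := ((ν.real B : ℝ) : ℂ)
  have hpt : ∀ z, conj ((cind μ A ∘ π) z) * (cind ν B ∘ π') z =
      (P ∩ Q).indicator (fun _ => (1 : ℂ)) z - q * P.indicator (fun _ => (1 : ℂ)) z -
        p * Q.indicator (fun _ => (1 : ℂ)) z + p * q := by
    intro z
    by_cases hzP : z ∈ P <;> by_cases hzQ : z ∈ Q <;>
      simp [cind, Set.indicator, P, Q, p, q] at hzP hzQ ⊢ <;> simp [hzP, hzQ] <;> ring
  have i1 := (integrable_const (μ := ρ) (1 : ℂ)).indicator (hP.inter hQ)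
  have i2 := ((integrable_const (μ := ρ) (1 : ℂ)).indicator hP).const_mul q
  have i3 := ((integrable_const (μ := ρ) (1 : ℂ)).indicator hQ).const_mul p
  have hint : ∀ {W : Set Z}, MeasurableSet W →
      ∫ z, W.indicator (fun _ => (1 : ℂ)) z ∂ρ = ((ρ.real W : ℝ) : ℂ) := fun hW => by
    rw [integral_indicator hW, setIntegral_const]; simp
  rw [integral_congr_ae (Eventually.of_forall hpt),
    integral_add (f := fun z => (P ∩ Q).indicator (fun _ => (1 : ℂ)) z -
      q * P.indicator (fun _ => (1 : ℂ)) z - p * Q.indicator (fun _ => (1 : ℂ)) z)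
      ((i1.sub i2).sub i3) (integrable_const _),
    integral_sub (f := fun z => (P ∩ Q).indicator (fun _ => (1 : ℂ)) z -
      q * P.indicator (fun _ => (1 : ℂ)) z) (i1.sub i2) i3, integral_sub i1 i2, integral_const_mul, integral_const_mul,
    hint (hP.inter hQ), hint hP, hint hQ, hpA, hqB] at h0
  simp only [integral_const, probReal_univ, one_smul, p, q] at h0
  have hreal : ρ.real (P ∩ Q) = μ.real A * ν.real B := by
    have := congrArg Complex.re h0
    simp at this
    linarith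
  rw [show (fun z => (π z, π' z)) ⁻¹' A ×ˢ B = P ∩ Q from rfl]
  rw [← ENNReal.toReal_eq_toReal_iff' (measure_ne_top _ _)
    (ENNReal.mul_ne_top (measure_ne_top _ _) (measure_ne_top _ _)), ENNReal.toReal_mul]
  exact hreal

end Basic

end Vale.Agent.P130
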