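import Mathlib

/-!
P130: approximate eigenfunctions of a totally ergodic transformation of a nontrivial probability
space, by towers of disjoint sets.
-/

noncomputable section

namespace Vale.Agent.P130

open MeasureTheory Filter Topology Set
open scoped ComplexConjugate

variable {X : Type*} [MeasurableSpace X] {μ : Measure X} [IsProbabilityMeasure μ] {S : X → X}

omit [IsProbabilityMeasure μ] in
theorem measureReal_preimage_iterate (hS : MeasurePreserving S μ μ) {A : Set X}
    (hA : MeasurableSet A) (k : ℕ) : μ.real (S^[k] ⁻¹' A) = μ.real A := by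
  simp only [Measure.real, (hS.iterate k).measure_preimage hA.nullMeasurableSet]

/-- Small sets exist. -/
theorem exists_small (hS : MeasurePreserving S μ μ)
    (herg : ∀ k, k ≠ 0 → ∀ A, MeasurableSet A → S^[k] ⁻¹' A =ᵐ[μ] A → μ.real A = 0 ∨ μ.real A = 1)
    {A₁ : Set X} (hA₁ : MeasurableSet A₁) (h₀ : 0 < μ.real A₁) (h₁ : μ.real A₁ < 1)
    {η : ℝ} (hη : 0 < η) : ∃ C, MeasurableSet C ∧ 0 < μ.real C ∧ μ.real C < η := by
  by_contra hno
  push Not at hno
  set V := {r | ∃ C, MeasurableSet C ∧ 0 < μ.real C ∧ μ.real C = r}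
  set m := sInf V
  have hne : V.Nonempty := ⟨_, A₁, hA₁, h₀, rfl⟩
  have hbd : BddBelow V := ⟨η, by rintro _ ⟨C, hC, hC0, rfl⟩; exact hno C hC hC0⟩
  have hm : η ≤ m := le_csInf hne (by rintro _ ⟨C, hC, hC0, rfl⟩; exact hno C hC hC0)
  have hle : ∀ C, MeasurableSet C → 0 < μ.real C → m ≤ μ.real C := fun C hC hC0 =>
    csInf_le hbd ⟨C, hC, hC0, rfl⟩
  obtain ⟨_, ⟨A, hA, hA0, rfl⟩, hAm⟩ := exists_lt_of_csInf_lt hne (show m < 2 * m by linarith)
  have hsplit : ∀ B, MeasurableSet B → 0 < μ.real (A ∩ B) → μ.real (A \ B) = 0 := by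
    intro B hB hpos
    by_contra h
    have h2 := hle _ (hA.diff hB) (lt_of_le_of_ne measureReal_nonneg (Ne.symm h))
    have h3 := hle _ (hA.inter hB) hpos
    have := measureReal_inter_add_sdiff (μ := μ) (s := A) hB
    linarith
  obtain ⟨N, hN⟩ := exists_nat_gt (1 / μ.real A)
  rw [div_lt_iff₀ hA0] at hN
  obtain ⟨d, hd0, hd⟩ : ∃ d, d ≠ 0 ∧ 0 < μ.real (A ∩ S^[d] ⁻¹' A) := by
    by_contra h
    push Not at h
    have hm' : ∀ k, MeasurableSet (S^[k] ⁻¹' A) := fun k => (hS.iterate k).measurable hA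
    have hdisj : (Finset.range N : Set ℕ).Pairwise
        (Function.onFun (AEDisjoint μ) fun k => S^[k] ⁻¹' A) := by
      have key : ∀ i j, i < j → AEDisjoint μ (S^[i] ⁻¹' A) (S^[j] ⁻¹' A) := by
        intro i j hij
        have e : S^[i] ⁻¹' A ∩ S^[j] ⁻¹' A = S^[i] ⁻¹' (A ∩ S^[j - i] ⁻¹' A) := by
          rw [preimage_inter, ← preimage_comp, ← Function.iterate_add,
            Nat.sub_add_cancel hij.le]
        have h0 : μ.real (S^[i] ⁻¹' (A ∩ S^[j - i] ⁻¹' A)) = 0 := by
          rw [measureReal_preimage_iterate hS (hA.inter (hm' _))]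
          exact le_antisymm (h _ (by omega)) measureReal_nonneg
        rwa [← e, measureReal_eq_zero_iff] at h0
      intro i _ j _ hij
      rcases lt_or_gt_of_ne hij with hlt | hlt
      · exact key i j hlt
      · exact (key j i hlt).symm
    have hsum : μ.real (⋃ k ∈ Finset.range N, S^[k] ⁻¹' A) = N * μ.real A := by
      rw [measureReal_biUnion_finset₀ hdisj fun k _ => (hm' k).nullMeasurableSet]
      simp [measureReal_preimage_iterate hS hA]
    have := measureReal_le_one (μ := μ) (s := ⋃ k ∈ Finset.range N, S^[k] ⁻¹' A)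
    linarith
  have hsub : A ≤ᵐ[μ] S^[d] ⁻¹' A := by
    rw [ae_le_set, ← measureReal_eq_zero_iff]
    exact hsplit _ ((hS.iterate d).measurable hA) hd
  have heq : S^[d] ⁻¹' A =ᵐ[μ] A := (ae_eq_of_ae_subset_of_measure_ge hsub
    ((hS.iterate d).measure_preimage hA.nullMeasurableSet).le hA.nullMeasurableSet
    (measure_ne_top _ _)).symm
  rcases herg d hd0 A hA heq with h | h
  · linarith
  · have h2 := hle A₁ hA₁ h₀
    have h3 := hle A₁ᶜ hA₁.compl (by rw [probReal_compl_eq_one_sub hA₁]; linarith)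
    rw [probReal_compl_eq_one_sub hA₁] at h3
    linarith

/-- Approximate eigenfunctions for every unimodular number. -/
theorem exists_approx_eigen (hS : MeasurePreserving S μ μ)
    (herg : ∀ k, k ≠ 0 → ∀ A, MeasurableSet A → S^[k] ⁻¹' A =ᵐ[μ] A → μ.real A = 0 ∨ μ.real A = 1)
    {A₁ : Set X} (hA₁ : MeasurableSet A₁) (h₀ : 0 < μ.real A₁) (h₁ : μ.real A₁ < 1)
    {l : ℂ} (hl : ‖l‖ = 1) {δ : ℝ} (hδ : 0 < δ) :
    ∃ a : X → ℂ, MemLp a 2 μ ∧ ∫ x, a x ∂μ = 0 ∧
      ∫ x, ‖a (S x) - l * a x‖ ^ 2 ∂μ < δ ^ 2 * ∫ x, ‖a x‖ ^ 2 ∂μ := by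
  obtain ⟨N, hN⟩ := exists_nat_gt (64 / δ ^ 2)
  rw [div_lt_iff₀ (by positivity)] at hN
  have hN0 : 0 < (N : ℝ) := by
    by_contra h
    push Not at h
    nlinarith [sq_nonneg δ]
  obtain ⟨C, hC, hC0, hCs⟩ := exists_small hS herg hA₁ h₀ h₁
    (η := min (1 / 4) (δ ^ 2 / 128) / (N + 1)) (by positivity)
  rw [lt_div_iff₀ (by positivity)] at hCs
  have hC1 := hCs.trans_le (min_le_left _ _)
  have hC2 := hCs.trans_le (min_le_right _ _)
  set B := ⋃ k ∈ Finset.Icc 1 N, S^[k] ⁻¹' C
  have hBm : MeasurableSet B :=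
    Finset.measurableSet_biUnion _ fun k _ => (hS.iterate k).measurable hC
  set D := C \ B
  have hDm : MeasurableSet D := hC.diff hBm
  have hD : 0 < μ.real D := by
    refine lt_of_le_of_ne measureReal_nonneg fun h => ?_
    have hCB : C ≤ᵐ[μ] B := by
      rw [ae_le_set, ← measureReal_eq_zero_iff]
      exact h.symm
    have hBS : B ≤ᵐ[μ] S ⁻¹' B := by
      have hsucc : ∀ k, S^[k + 1] ⁻¹' C = S ⁻¹' (S^[k] ⁻¹' C) := fun k => rfl
      have h1 : S ⁻¹' C ≤ᵐ[μ] S ⁻¹' B :=
        hS.quasiMeasurePreserving.preimage_mono_ae hCB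
      refine ae_le_set.2 (measure_mono_null ?_ (ae_le_set.1 h1))
      rintro x ⟨hx, hx'⟩
      simp only [B, mem_iUnion, Finset.mem_Icc, exists_prop] at hx
      obtain ⟨k, ⟨hk1, hk2⟩, hxk⟩ := hx
      rcases Nat.lt_or_ge 1 k with hk | hk
      · refine absurd ?_ hx'
        show S x ∈ B
        simp only [B, mem_iUnion, Finset.mem_Icc, exists_prop]
        refine ⟨k - 1, ⟨by omega, by omega⟩, ?_⟩
        rw [show k = k - 1 + 1 by omega, hsucc] at hxk
        exact hxk
      · obtain rfl : k = 1 := by omega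
        exact ⟨hxk, hx'⟩
    have heq : S^[1] ⁻¹' B =ᵐ[μ] B := by
      rw [Function.iterate_one]
      exact (ae_eq_of_ae_subset_of_measure_ge hBS
        (hS.measure_preimage hBm.nullMeasurableSet).le hBm.nullMeasurableSet
        (measure_ne_top _ _)).symm
    have hle : μ.real B ≤ N * μ.real C := by
      refine (measureReal_biUnion_finset_le _ _).trans ?_
      simp [measureReal_preimage_iterate hS hC]
    have hCB' : μ.real C ≤ μ.real B := by
      simp only [Measure.real]
      exact ENNReal.toReal_mono (measure_ne_top _ _) (measure_mono_ae hCB)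
    rcases herg 1 one_ne_zero B hBm heq with h' | h'
    · linarith
    · nlinarith
  have hdisj : ∀ i j, i < j → j ≤ N → ∀ x, S^[i] x ∈ D → S^[j] x ∉ D := by
    intro i j hij hj x hi hj'
    refine hi.2 ?_
    simp only [B, mem_iUnion, Finset.mem_Icc, exists_prop]
    refine ⟨j - i, ⟨by omega, by omega⟩, ?_⟩
    show S^[j - i] (S^[i] x) ∈ C
    rw [← Function.iterate_add_apply, Nat.sub_add_cancel hij.le]
    exact hj'.1
  classical
  set I : ℕ → X → ℂ := fun k x => if S^[k] x ∈ D then 1 else 0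
  set c := conj l
  have hlc : l * c = 1 := by
    rw [Complex.mul_conj, Complex.normSq_eq_norm_sq, hl]
    norm_num
  have hc : ‖c‖ = 1 := by simp [c, hl]
  set a₀ : X → ℂ := fun x => ∑ k ∈ Finset.range N, c ^ k * I k x
  have hIm : ∀ k, Measurable (I k) := fun k =>
    Measurable.ite ((hS.iterate k).measurable hDm) measurable_const measurable_const
  have ham : Measurable a₀ := Finset.measurable_sum _ fun k _ => (hIm k).const_mul _
  have hIr : ∀ k, ∫ x, ‖I k x‖ ∂μ = μ.real D := fun k => by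
    have : (fun x => ‖I k x‖) = (S^[k] ⁻¹' D).indicator fun _ => (1 : ℝ) := by
      funext x
      by_cases h : S^[k] x ∈ D <;> simp [I, h, Set.indicator]
    rw [this, integral_indicator ((hS.iterate k).measurable hDm), setIntegral_const, smul_eq_mul,
      mul_one, measureReal_preimage_iterate hS hDm]
  have hnorm : ∀ x, ‖a₀ x‖ = ∑ k ∈ Finset.range N, ‖I k x‖ ∧ ‖a₀ x‖ ≤ 1 := fun x => by
    by_cases h : ∃ k ∈ Finset.range N, S^[k] x ∈ D
    · obtain ⟨k, hk, hkD⟩ := h
      have hz : ∀ j ∈ Finset.range N, j ≠ k → I j x = 0 := fun j hj hjk => if_neg fun hjD => by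
        simp only [Finset.mem_range] at hj hk
        rcases lt_or_gt_of_ne hjk with h' | h'
        · exact hdisj j k h' hk.le x hjD hkD
        · exact hdisj k j h' hj.le x hkD hjD
      have e1 : a₀ x = c ^ k := by
        simp only [a₀]
        rw [Finset.sum_eq_single k (fun j hj hjk => by simp [hz j hj hjk]) (fun h => absurd hk h)]
        simp [I, hkD]
      rw [e1, Finset.sum_eq_single k (fun j hj hjk => by simp [hz j hj hjk])
        (fun h => absurd hk h)]
      simp [I, hkD, hc]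
    · push Not at h
      have hz : ∀ k ∈ Finset.range N, I k x = 0 := fun k hk => if_neg (h k hk)
      have e1 : a₀ x = 0 := Finset.sum_eq_zero fun k hk => by simp [hz k hk]
      rw [e1, Finset.sum_eq_zero fun k hk => by simp [hz k hk]]
      simp
  set P := (N : ℝ) * μ.real D
  have hInt : ∀ k, Integrable (fun x => ‖I k x‖) μ := fun k =>
    (integrable_const (1 : ℝ)).mono' (hIm k).norm.aestronglyMeasurable (Eventually.of_forall
      fun x => by by_cases h : S^[k] x ∈ D <;> simp [I, h])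
  have hP1 : ∫ x, ‖a₀ x‖ ∂μ = P := by
    rw [funext fun x => (hnorm x).1, integral_finsetSum _ fun k _ => hInt k]
    simp [hIr, P]
  have hsq : ∀ x, ‖a₀ x‖ ^ 2 = ‖a₀ x‖ := fun x => by
    rcases em (∃ k ∈ Finset.range N, S^[k] x ∈ D) with ⟨k, hk, hkD⟩ | h
    · have h1 : 1 ≤ ‖a₀ x‖ := by
        rw [(hnorm x).1]
        exact le_trans (by simp [I, hkD]) (Finset.single_le_sum
          (f := fun k => ‖I k x‖) (fun j _ => norm_nonneg _) hk)
      rw [le_antisymm (hnorm x).2 h1, one_pow]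
    · push Not at h
      have : ‖a₀ x‖ = 0 := by
        rw [(hnorm x).1]
        exact Finset.sum_eq_zero fun k hk => by simp [I, h k hk]
      rw [this]
      norm_num
  have hmem : MemLp a₀ 2 μ :=
    MemLp.of_bound ham.aestronglyMeasurable 1 (Eventually.of_forall fun x => (hnorm x).2)
  set m := ∫ x, a₀ x ∂μ
  have hm : ‖m‖ ≤ P := (norm_integral_le_integral_norm _).trans hP1.le
  have ha : MemLp (fun x => a₀ x - m) 2 μ := hmem.sub (memLp_const m)
  refine ⟨fun x => a₀ x - m, ha, ?_, ?_⟩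
  · rw [integral_sub (hmem.integrable one_le_two) (integrable_const m)]
    simp [m]
  have hshift : ∀ k x, I k (S x) = I (k + 1) x := fun k x => rfl
  have htel : ∀ x, a₀ (S x) - l * a₀ x = l * c ^ N * I N x - l * I 0 x := by
    intro x
    have := Finset.sum_range_sub (fun k => l * c ^ k * I k x) N
    simp only [pow_zero, mul_one] at this
    rw [← this]
    simp only [a₀, hshift, Finset.mul_sum, ← Finset.sum_sub_distrib]
    refine Finset.sum_congr rfl fun k _ => ?_
    rw [pow_succ, show l * (c ^ k * c) = c ^ k by rw [mul_left_comm, hlc, mul_one]]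
    ring
  have hintsq : Integrable (fun x => ‖a₀ x - m‖ ^ 2) μ := ha.integrable_norm_pow'
  have hlow : P / 2 - P ^ 2 ≤ ∫ x, ‖a₀ x - m‖ ^ 2 ∂μ := by
    have hpt : ∀ x, ‖a₀ x‖ / 2 - ‖m‖ ^ 2 ≤ ‖a₀ x - m‖ ^ 2 := fun x => by
      have h := norm_add_le (a₀ x - m) m
      rw [sub_add_cancel] at h
      nlinarith [hsq x, sq_nonneg (‖a₀ x - m‖ - ‖m‖), norm_nonneg (a₀ x),
        pow_le_pow_left₀ (norm_nonneg _) h 2]
    have h1 : Integrable (fun x => ‖a₀ x‖ / 2 - ‖m‖ ^ 2) μ :=
      ((hmem.integrable one_le_two).norm.div_const 2).sub (integrable_const _)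
    refine le_trans ?_ (integral_mono h1 hintsq hpt)
    rw [integral_sub ((hmem.integrable one_le_two).norm.div_const 2) (integrable_const _),
      integral_div, hP1]
    simp only [integral_const, probReal_univ, one_smul]
    nlinarith [pow_le_pow_left₀ (norm_nonneg m) hm 2]
  have hup : ∫ x, ‖a₀ (S x) - m - l * (a₀ x - m)‖ ^ 2 ∂μ ≤ 8 * μ.real D + 8 * P ^ 2 := by
    have hpt : ∀ x, ‖a₀ (S x) - m - l * (a₀ x - m)‖ ^ 2 ≤
        4 * ‖I N x‖ + 4 * ‖I 0 x‖ + 8 * P ^ 2 := fun x => by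
      rw [show a₀ (S x) - m - l * (a₀ x - m) = a₀ (S x) - l * a₀ x - (1 - l) * m by ring,
        htel]
      have hb : ∀ k, ‖I k x‖ ^ 2 = ‖I k x‖ := fun k => by
        by_cases h : S^[k] x ∈ D <;> simp [I, h]
      have h1 : ‖l * c ^ N * I N x - l * I 0 x - (1 - l) * m‖ ≤ ‖I N x‖ + ‖I 0 x‖ + 2 * P := by
        refine (norm_sub_le _ _).trans (add_le_add ((norm_sub_le _ _).trans (le_of_eq ?_)) ?_)
        · simp [hl, hc]
        · rw [norm_mul]
          have h2 : ‖1 - l‖ ≤ 2 := (norm_sub_le _ _).trans (by rw [norm_one, hl]; norm_num)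
          exact mul_le_mul h2 hm (norm_nonneg _) two_pos.le
      nlinarith [hb N, hb 0, pow_le_pow_left₀ (norm_nonneg _) h1 2,
        sq_nonneg (‖I N x‖ - ‖I 0 x‖), sq_nonneg (‖I N x‖ + ‖I 0 x‖ - 2 * P)]
    refine (integral_mono_of_nonneg (Eventually.of_forall fun x => by positivity) ?_
      (Eventually.of_forall hpt)).trans ?_
    · exact (((hInt N).const_mul 4).add ((hInt 0).const_mul 4)).add (integrable_const _)
    · rw [integral_add (f := fun x => 4 * ‖I N x‖ + 4 * ‖I 0 x‖)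
          ((((hInt N).const_mul 4)).add ((hInt 0).const_mul 4)) (integrable_const _),
        integral_add ((hInt N).const_mul 4) ((hInt 0).const_mul 4), integral_const_mul,
        integral_const_mul, hIr, hIr]
      simp only [integral_const, probReal_univ, one_smul]
      linarith
  have hP0 : 0 < P := mul_pos hN0 hD
  have hPC : P ≤ μ.real C * (N + 1) := by
    have := measureReal_mono (μ := μ) (sdiff_subset : D ⊆ C)
    nlinarith [measureReal_nonneg (μ := μ) (s := D)]
  calc ∫ x, ‖a₀ (S x) - m - l * (a₀ x - m)‖ ^ 2 ∂μ ≤ 8 * μ.real D + 8 * P ^ 2 := hup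
    _ < δ ^ 2 * (P / 4) := by
      have e1 := mul_lt_mul_of_pos_right hN hD
      have e2 : P * P ≤ P * (δ ^ 2 / 128) :=
        mul_le_mul_of_nonneg_left (hPC.trans hC2.le) hP0.le
      simp only [P] at e2 hP0 ⊢
      nlinarith
    _ ≤ δ ^ 2 * ∫ x, ‖a₀ x - m‖ ^ 2 ∂μ := by
      refine mul_le_mul_of_nonneg_left (le_trans ?_ hlow) (sq_nonneg δ)
      nlinarith [hPC.trans hC1.le]

end Vale.Agent.P130
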