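import Vale.Agent.P130.Circle
import Vale.Agent.P130.Tower

/-!
P130: a product of two nontrivial systems does not have simple Lebesgue spectrum.
-/

noncomputable section

namespace Vale.Agent.P130

open MeasureTheory Filter Topology AddCircle
open scoped ComplexInnerProductSpace ComplexConjugate ENNReal

section general

variable {Z : Type*} [MeasurableSpace Z] {ρ : Measure Z}

/-- Square integrals as inner products. -/
theorem inner_toLp {g h : Z → ℂ} (hg : MemLp g 2 ρ) (hh : MemLp h 2 ρ) :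
    ⟪hg.toLp g, hh.toLp h⟫ = ∫ z, conj (g z) * h z ∂ρ := by
  rw [L2.inner_def]
  refine integral_congr_ae ?_
  filter_upwards [hg.coeFn_toLp, hh.coeFn_toLp] with z h1 h2
  rw [RCLike.inner_apply', h1, h2]

theorem integral_mp {W : Type*} [MeasurableSpace W] {μ : Measure W} {π : Z → W}
    (hπ : MeasurePreserving π ρ μ) {E : Type*} [NormedAddCommGroup E] [NormedSpace ℝ E]
    {g : W → E} (hg : AEStronglyMeasurable g μ) : ∫ z, g (π z) ∂ρ = ∫ x, g x ∂μ := by
  have h := integral_map hπ.aemeasurable (f := g) (by rwa [hπ.map_eq])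
  rw [hπ.map_eq] at h
  exact h.symm

theorem toLp_eq_zero_iff {g : Z → ℂ} (hg : MemLp g 2 ρ) : hg.toLp g = 0 ↔ g =ᵐ[ρ] 0 := by
  rw [Lp.eq_zero_iff_ae_eq_zero]
  exact ⟨fun h => hg.coeFn_toLp.symm.trans h, fun h => hg.coeFn_toLp.trans h⟩

theorem norm_sq_toLp {g : Z → ℂ} (hg : MemLp g 2 ρ) : ‖hg.toLp g‖ ^ 2 = ∫ z, ‖g z‖ ^ 2 ∂ρ := by
  have h := inner_toLp hg hg
  rw [inner_self_eq_norm_sq_to_K,
    integral_congr_ae (g := fun z => ((‖g z‖ ^ 2 : ℝ) : ℂ)) (Eventually.of_forall fun z => by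
      simp only [Complex.conj_mul', Complex.ofReal_pow])] at h
  rw [integral_complex_ofReal] at h
  simpa [← Complex.ofReal_pow, -Lp.norm_toLp] using congrArg Complex.re h

theorem measurePreserving_zpow (e : Z ≃ᵐ Z) (he : MeasurePreserving e ρ ρ) (k : ℤ) :
    MeasurePreserving (⇑(e.toEquiv ^ k : Equiv.Perm Z)) ρ ρ := by
  induction k using Int.induction_on with
  | zero => simpa using MeasurePreserving.id ρ
  | succ k ih => rw [zpow_add_one, Equiv.Perm.coe_mul]; exact ih.comp he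
  | pred k ih => rw [zpow_sub_one, Equiv.Perm.coe_mul]; exact ih.comp (he.symm e)

/-- The orbit of `f` is an orthonormal basis of the mean zero square integrable functions. -/
structure Basic (ρ : Measure Z) (T : Equiv.Perm Z) (f : Z → ℂ) : Prop where
  mp : ∀ k : ℤ, MeasurePreserving (⇑(T ^ k)) ρ ρ
  mem : MemLp f 2 ρ
  mean : ∫ z, f z ∂ρ = 0
  ortho : ∀ i j : ℤ, ∫ z, conj (f ((T ^ i) z)) * f ((T ^ j) z) ∂ρ = if i = j then 1 else 0
  complete : ∀ g : Z → ℂ, MemLp g 2 ρ → ∫ z, g z ∂ρ = 0 →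
    (∀ i : ℤ, ∫ z, conj (f ((T ^ i) z)) * g z ∂ρ = 0) → g =ᵐ[ρ] 0

variable [IsProbabilityMeasure ρ] {T : Equiv.Perm Z} {f : Z → ℂ}

namespace Basic

omit [IsProbabilityMeasure ρ] in
theorem orthonormal (hB : Basic ρ T f) :
    Orthonormal ℂ fun i => (hB.mem.comp_measurePreserving (hB.mp i)).toLp _ := by
  rw [orthonormal_iff_ite]
  intro i j
  rw [inner_toLp, ← hB.ortho i j]
  rfl

/-- The circle model of the system. -/
def V (hB : Basic ρ T f) : L2Circ →ₗᵢ[ℂ] Lp ℂ 2 ρ := model hB.orthonormal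

/-- The Koopman operator of `T ^ k`. -/
def U (hB : Basic ρ T f) (k : ℤ) : Lp ℂ 2 ρ →L[ℂ] Lp ℂ 2 ρ :=
  (Lp.compMeasurePreservingₗᵢ ℂ _ (hB.mp k)).toContinuousLinearMap

omit [IsProbabilityMeasure ρ] in
theorem U_toLp (hB : Basic ρ T f) (k : ℤ) {g : Z → ℂ} (hg : MemLp g 2 ρ) :
    hB.U k (hg.toLp g) = (hg.comp_measurePreserving (hB.mp k)).toLp _ := rfl

omit [IsProbabilityMeasure ρ] in
theorem U_V (hB : Basic ρ T f) (k : ℤ) (ψ : L2Circ) :
    hB.U k (hB.V ψ) = hB.V (mulFourier k ψ) := by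
  refine model_intertwine _ _ (fun i => ?_) ψ
  rw [hB.U_toLp k (hB.mem.comp_measurePreserving (hB.mp i))]
  refine MemLp.toLp_congr _ _ (Eventually.of_forall fun z => ?_)
  show f ((T ^ i) ((T ^ k) z)) = f ((T ^ (i + k)) z)
  rw [zpow_add, Equiv.Perm.mul_apply]

/-- Every mean zero function is in the model. -/
theorem rep (hB : Basic ρ T f) {g : Z → ℂ} (hg : MemLp g 2 ρ) (h0 : ∫ z, g z ∂ρ = 0) :
    ∃ ψ, hB.V ψ = hg.toLp g := by
  refine mem_range_model _ fun k hk => ?_
  set m := ∫ z, k z ∂ρ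
  have hk2 : MemLp (fun z => k z - m) 2 ρ := (Lp.memLp k).sub (memLp_const m)
  have hki : Integrable k ρ := (Lp.memLp k).integrable one_le_two
  have hz : (fun z => k z - m) =ᵐ[ρ] 0 := by
    refine hB.complete _ hk2 ?_ fun i => ?_
    · rw [integral_sub hki (integrable_const m)]
      simp [m]
    · have hf := hB.mem.comp_measurePreserving (hB.mp i)
      have h1 := hk i
      rw [L2.inner_def] at h1
      have h2 : ∫ z, conj (f ((T ^ i) z)) * k z ∂ρ = 0 := by
        rw [← h1]
        refine integral_congr_ae ?_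
        filter_upwards [hf.coeFn_toLp] with z hz
        rw [RCLike.inner_apply', hz]
        rfl
      have h3 : Integrable (fun z => conj (f ((T ^ i) z)) * k z) ρ :=
        hf.star.integrable_mul (Lp.memLp k)
      have hfi : Integrable (fun z => conj (f ((T ^ i) z))) ρ :=
        hf.star.integrable one_le_two
      simp only [mul_sub]
      rw [integral_sub h3 (hfi.mul_const m), h2, integral_mul_const, integral_conj,
        integral_mp (hB.mp i) hB.mem.aestronglyMeasurable, hB.mean]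
      simp
  rw [L2.inner_def]
  calc ∫ z, ⟪k z, hg.toLp g z⟫ ∂ρ = ∫ z, conj m * g z ∂ρ := by
        refine integral_congr_ae ?_
        filter_upwards [hz, hg.coeFn_toLp] with z h1 h2
        rw [RCLike.inner_apply', h2, sub_eq_zero.1 h1]
    _ = 0 := by rw [integral_const_mul, h0, mul_zero]

omit [IsProbabilityMeasure ρ] in
/-- Correlations in the model. -/
theorem corr (hB : Basic ρ T f) {g h : Z → ℂ} (hg : MemLp g 2 ρ) (hh : MemLp h 2 ρ)
    {ψ χ : L2Circ} (hψ : hB.V ψ = hg.toLp g) (hχ : hB.V χ = hh.toLp h) (k : ℤ) :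
    ∫ z, conj (g ((T ^ k) z)) * h z ∂ρ = fourierCoeff (fun x => conj (ψ x) * χ x) k := by
  rw [← inner_mulFourier, ← hB.V.inner_map_map, ← hB.U_V, hψ, hχ, hB.U_toLp, inner_toLp]
  rfl

/-- No function is fixed by a nontrivial power. -/
theorem fixed_eq_zero (hB : Basic ρ T f) {k : ℤ} (hk : k ≠ 0) {g : Z → ℂ} (hg : MemLp g 2 ρ)
    (h0 : ∫ z, g z ∂ρ = 0) (hfix : (fun z => g ((T ^ k) z)) =ᵐ[ρ] g) : g =ᵐ[ρ] 0 := by
  obtain ⟨ψ, hψ⟩ := hB.rep hg h0
  have hmul : mulFourier k ψ = ψ := hB.V.injective (by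
    rw [← hB.U_V, hψ, hB.U_toLp]
    exact MemLp.toLp_congr _ _ hfix)
  have hper : ∀ i, fourierCoeff ψ i = fourierCoeff ψ (i - k) := fun i => by
    conv_lhs => rw [← hmul]
    refine integral_congr_ae ?_
    filter_upwards [coeFn_mulFourier k ψ] with x hx
    rw [hx, smul_eq_mul, smul_eq_mul, neg_sub, sub_eq_add_neg k i, fourier_add]
    ring
  have hz : ∀ i, fourierCoeff ψ i = 0 := fun i => by
    have hs := (hasSum_sq_fourierCoeff ψ).summable.tendsto_cofinite_zero
    have hinj : Function.Injective fun n : ℕ => i + n * k := fun a b h => by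
      simpa [hk] using h
    have hconst : ∀ n : ℕ, fourierCoeff ψ (i + n * k) = fourierCoeff ψ i := fun n => by
      induction n with
      | zero => simp
      | succ n ih =>
        rw [hper, show i + ((n + 1 : ℕ) : ℤ) * k - k = i + n * k by push_cast; ring, ih]
    have h1 := hs.comp hinj.tendsto_cofinite
    simp only [Function.comp_def, hconst, tendsto_const_nhds_iff] at h1
    simpa using h1
  have hψ0 : ψ = 0 := by
    have : fourierBasis.repr ψ = 0 := by
      ext i
      rw [fourierBasis_repr, hz]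
      rfl
    simpa using this
  rw [hψ0, map_zero, eq_comm, toLp_eq_zero_iff] at hψ
  exact hψ

/-- A factor contributes a nonzero element with bounded model. -/
theorem factor_bounded (hB : Basic ρ T f) {X : Type*} [MeasurableSpace X] {μ : Measure X}
    [IsProbabilityMeasure μ] {π : Z → X} (hπ : MeasurePreserving π ρ μ) (R : ℤ → X → X)
    (hR : ∀ k, MeasurePreserving (R k) μ μ) (hπT : ∀ k z, π ((T ^ k) z) = R k (π z))
    {A : Set X} (hA : MeasurableSet A) (h₀ : 0 < μ.real A) (h₁ : μ.real A < 1) :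
    ∃ (a : X → ℂ) (ha : MemLp a 2 μ) (ψ : L2Circ) (C : ℝ), ∫ x, a x ∂μ = 0 ∧
      hB.V ψ = (ha.comp_measurePreserving hπ).toLp _ ∧ (∀ᵐ x ∂haarAddCircle, ‖ψ x‖ ≤ C) ∧
        0 < ∫ x, ‖a x‖ ^ 2 ∂μ := by
  classical
  set p := μ.real A
  set a₁ : X → ℂ := fun x => (if x ∈ A then (1 : ℂ) else 0) - p
  have ha₁ : MemLp a₁ 2 μ := MemLp.of_bound
    (((Measurable.ite hA measurable_const measurable_const)).sub_const _).aestronglyMeasurable 2
    (Eventually.of_forall fun x => by
      refine (norm_sub_le _ _).trans ?_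
      rw [Complex.norm_real, Real.norm_of_nonneg measureReal_nonneg]
      have : μ.real A ≤ 1 := measureReal_le_one
      split_ifs <;> simp <;> linarith)
  have hind : ∫ x, (if x ∈ A then (1 : ℂ) else 0) ∂μ = p := by
    rw [show (fun x => if x ∈ A then (1 : ℂ) else 0) = A.indicator fun _ => 1 by
      funext x; simp [Set.indicator], integral_indicator hA, setIntegral_const]
    simp [p]
  have hindi : Integrable (fun x => if x ∈ A then (1 : ℂ) else 0) μ := by
    rw [show (fun x => if x ∈ A then (1 : ℂ) else 0) = A.indicator fun _ => 1 by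
      funext x; simp [Set.indicator]]
    exact (integrable_const 1).indicator hA
  have ha₁0 : ∫ x, a₁ x ∂μ = 0 := by
    simp only [a₁]
    rw [integral_sub hindi (integrable_const _), hind]
    simp
  have hmean : ∀ {b : X → ℂ}, MemLp b 2 μ → ∫ z, b (π z) ∂ρ = ∫ x, b x ∂μ := fun hb =>
    integral_mp hπ hb.aestronglyMeasurable
  set J := Lp.compMeasurePreservingₗᵢ ℂ (p := 2) π hπ (E := ℂ)
  set one := (memLp_const (1 : ℂ) : MemLp (fun _ : X => (1 : ℂ)) 2 μ).toLp _
  set K := (ℂ ∙ one)ᗮ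
  have hK : ∀ {b : X → ℂ} (hb : MemLp b 2 μ), hb.toLp b ∈ K ↔ ∫ x, b x ∂μ = 0 := fun hb => by
    rw [Submodule.mem_orthogonal_singleton_iff_inner_right, inner_toLp]
    simp
  set M : Submodule ℂ L2Circ := (K.map J.toLinearMap).comap hB.V.toLinearMap
  have hMc : IsClosed (M : Set L2Circ) := IsClosed.preimage hB.V.continuous
    (J.isometry.isClosedEmbedding.isClosedMap _ (Submodule.isClosed_orthogonal _))
  have hinv : ∀ k, ∀ ψ ∈ M, mulFourier k ψ ∈ M := by
    rintro k ψ ⟨b, hb, hbψ⟩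
    have hbk := (Lp.memLp b).comp_measurePreserving (hR k)
    refine ⟨hbk.toLp _, (hK hbk).2 ?_, ?_⟩
    · have h1 := (hK (Lp.memLp b)).1 (by rwa [Lp.toLp_coeFn])
      rw [← h1]
      exact integral_mp (hR k) (Lp.aestronglyMeasurable b)
    · change J (hbk.toLp _) = hB.V (mulFourier k ψ)
      have e : hB.V ψ = ((Lp.memLp b).comp_measurePreserving hπ).toLp _ := by
        rw [show hB.V ψ = J b from hbψ.symm]
        conv_lhs => rw [← Lp.toLp_coeFn b (Lp.memLp b)]
        rfl
      rw [← hB.U_V, e, hB.U_toLp]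
      change (hbk.comp_measurePreserving hπ).toLp _ = _
      refine MemLp.toLp_congr _ _ (Eventually.of_forall fun z => ?_)
      show b (R k (π z)) = b (π ((T ^ k) z))
      rw [hπT]
  obtain ⟨ψ₁, hψ₁⟩ := hB.rep (ha₁.comp_measurePreserving hπ) (by rw [← ha₁0]; exact hmean ha₁)
  have hψ₁M : ψ₁ ∈ M := ⟨ha₁.toLp _, (hK ha₁).2 ha₁0, hψ₁.symm⟩
  have hψ₁0 : ψ₁ ≠ 0 := by
    intro h
    rw [h, map_zero, eq_comm, toLp_eq_zero_iff] at hψ₁
    have h2 : ∫ x, ‖a₁ x‖ ^ 2 ∂μ = 0 := by
      rw [← integral_mp hπ (g := fun x => ‖a₁ x‖ ^ 2) (ha₁.aestronglyMeasurable.norm.pow 2)]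
      refine integral_eq_zero_of_ae ?_
      filter_upwards [hψ₁] with z hz
      simp only [Function.comp_apply, Pi.zero_apply] at hz
      simp [hz]
    have h3 : ∫ x, ‖a₁ x‖ ^ 2 ∂μ = p - p ^ 2 := by
      have e : ∀ x, ‖a₁ x‖ ^ 2 = A.indicator (fun _ => 1 - 2 * p) x + p ^ 2 := fun x => by
        by_cases hx : x ∈ A
        · rw [Set.indicator_of_mem hx, show a₁ x = ((1 - p : ℝ) : ℂ) by simp [a₁, hx],
            Complex.norm_real, Real.norm_eq_abs, sq_abs]
          ring
        · rw [Set.indicator_of_notMem hx, show a₁ x = ((-p : ℝ) : ℂ) by simp [a₁, hx],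
            Complex.norm_real, Real.norm_eq_abs, sq_abs]
          ring
      rw [funext e, integral_add ((integrable_const _).indicator hA) (integrable_const _),
        integral_indicator hA, setIntegral_const]
      simp only [integral_const, probReal_univ, smul_eq_mul, p]
      ring
    have : 0 < p - p ^ 2 := by nlinarith
    linarith
  obtain ⟨N, hN⟩ : ∃ N : ℕ, ¬ (fun x => (if ‖ψ₁ x‖ ≤ N then (1 : ℂ) else 0) * ψ₁ x)
      =ᵐ[haarAddCircle] 0 := by
    by_contra hall
    push Not at hall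
    refine hψ₁0 ?_
    rw [Lp.eq_zero_iff_ae_eq_zero]
    filter_upwards [ae_all_iff.2 hall] with x hx
    obtain ⟨N, hN⟩ := exists_nat_ge ‖ψ₁ x‖
    simpa [hN] using hx N
  have hm : Measurable fun x => if ‖ψ₁ x‖ ≤ N then (1 : ℂ) else 0 :=
    Measurable.ite (measurableSet_le (Lp.stronglyMeasurable ψ₁).measurable.norm measurable_const)
      measurable_const measurable_const
  have hφ : MemLp (fun x => (if ‖ψ₁ x‖ ≤ N then (1 : ℂ) else 0) * ψ₁ x) 2 haarAddCircle :=
    (Lp.memLp ψ₁).of_le (hm.aestronglyMeasurable.mul (Lp.aestronglyMeasurable ψ₁))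
      (Eventually.of_forall fun x => by
        split_ifs <;> simp only [one_mul, zero_mul, norm_zero, le_refl, norm_nonneg])
  obtain ⟨b, hb, hbψ⟩ := mul_mem_of_invariant hMc hinv hψ₁M hφ
  refine ⟨b, Lp.memLp b, hφ.toLp _, N, (hK (Lp.memLp b)).1 (by rwa [Lp.toLp_coeFn]), ?_, ?_, ?_⟩
  · rw [show hB.V (hφ.toLp _) = J b from hbψ.symm]
    conv_lhs => rw [← Lp.toLp_coeFn b (Lp.memLp b)]
    rfl
  · filter_upwards [hφ.coeFn_toLp] with x hx
    rw [hx]
    split_ifs with h <;> simp [h]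
  · rw [← norm_sq_toLp (Lp.memLp b), Lp.toLp_coeFn, ← J.norm_map, show J b = hB.V (hφ.toLp _)
      from hbψ, LinearIsometry.norm_map]
    have : hφ.toLp _ ≠ 0 := by rw [Ne, toLp_eq_zero_iff]; exact hN
    positivity

end Basic

end general

/-- Main theorem of this file. -/
theorem no_simple_lebesgue_product {X Y : Type*} [MeasurableSpace X] [MeasurableSpace Y]
    (μ : Measure X) (ν : Measure Y) [IsProbabilityMeasure μ] [IsProbabilityMeasure ν]
    (S : X ≃ᵐ X) (S' : Y ≃ᵐ Y) (hS : MeasurePreserving S μ μ) (hS' : MeasurePreserving S' ν ν)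
    (hX : ∃ A, MeasurableSet A ∧ 0 < μ A ∧ μ A < 1)
    (hY : ∃ A, MeasurableSet A ∧ 0 < ν A ∧ ν A < 1) (f : X × Y → ℂ) :
    ¬ Basic (μ.prod ν) ((S.prodCongr S').toEquiv) f := by
  classical
  intro hB
  obtain ⟨A, hA, hA0, hA1⟩ := hX
  obtain ⟨B, hBm, hB0, hB1⟩ := hY
  have hA0' : 0 < μ.real A := ENNReal.toReal_pos hA0.ne' (measure_ne_top _ _)
  have hB0' : 0 < ν.real B := ENNReal.toReal_pos hB0.ne' (measure_ne_top _ _)
  have hA1' : μ.real A < 1 := by
    simpa [Measure.real] using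
      (ENNReal.toReal_lt_toReal (measure_ne_top _ _) ENNReal.one_ne_top).2 hA1
  have hB1' : ν.real B < 1 := by
    simpa [Measure.real] using
      (ENNReal.toReal_lt_toReal (measure_ne_top _ _) ENNReal.one_ne_top).2 hB1
  set T : Equiv.Perm (X × Y) := (S.prodCongr S').toEquiv with hT
  have hTk : ∀ (k : ℤ) z, (T ^ k) z =
      (((S.toEquiv ^ k : Equiv.Perm X)) z.1, ((S'.toEquiv ^ k : Equiv.Perm Y)) z.2) := by
    intro k
    induction k using Int.induction_on with
    | zero => simp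
    | succ k ih =>
      intro z
      rw [zpow_add_one, zpow_add_one, zpow_add_one, Equiv.Perm.mul_apply, Equiv.Perm.mul_apply,
        Equiv.Perm.mul_apply, ih]
      rfl
    | pred k ih =>
      intro z
      rw [zpow_sub_one, zpow_sub_one, zpow_sub_one, Equiv.Perm.mul_apply, Equiv.Perm.mul_apply,
        Equiv.Perm.mul_apply, ih]
      rfl
  have hfst : MeasurePreserving (Prod.fst : X × Y → X) (μ.prod ν) μ := measurePreserving_fst
  have hsnd : MeasurePreserving (Prod.snd : X × Y → Y) (μ.prod ν) ν := measurePreserving_snd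
  obtain ⟨a₀, ha₀, ψa, Ca, ha₀0, hψa, hCa, hapos⟩ := hB.factor_bounded hfst
    (fun k => ⇑(S.toEquiv ^ k : Equiv.Perm X)) (fun k => measurePreserving_zpow S hS k)
    (fun k z => by rw [hTk]) hA hA0' hA1'
  obtain ⟨b₀, hb₀, ψb, Cb, hb₀0, hψb, hCb, hbpos⟩ := hB.factor_bounded hsnd
    (fun k => ⇑(S'.toEquiv ^ k : Equiv.Perm Y)) (fun k => measurePreserving_zpow S' hS' k)
    (fun k z => by rw [hTk]) hBm hB0' hB1'
  set h : X × Y → ℂ := fun z => a₀ z.1 * b₀ z.2
  have hh : MemLp h 2 (μ.prod ν) := by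
    refine (memLp_two_iff_integrable_sq_norm (f := h)
      ((ha₀.aestronglyMeasurable.comp_measurePreserving hfst).mul
        (hb₀.aestronglyMeasurable.comp_measurePreserving hsnd))).2 ?_
    simp only [h, norm_mul, mul_pow]
    exact ha₀.integrable_norm_pow'.mul_prod hb₀.integrable_norm_pow'
  obtain ⟨χ, hχ⟩ := hB.rep hh (by simp only [h]; rw [integral_prod_mul, ha₀0, zero_mul])
  -- the correlations of the product
  set ca : ℤ → ℂ := fun k => fourierCoeff (fun x => conj (ψa x) * ψa x) k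
  set cb : ℤ → ℂ := fun k => fourierCoeff (fun x => conj (ψb x) * ψb x) k
  have hca : ∀ k, ∫ x, conj (a₀ ((S.toEquiv ^ k : Equiv.Perm X) x)) * a₀ x ∂μ = ca k := fun k => by
    rw [← integral_mp hfst (g := fun x => conj (a₀ ((S.toEquiv ^ k : Equiv.Perm X) x)) * a₀ x)
      ((Complex.continuous_conj.comp_aestronglyMeasurable
        (ha₀.comp_measurePreserving (measurePreserving_zpow S hS k)).aestronglyMeasurable).mul
          ha₀.aestronglyMeasurable)]
    simp only [ca]
    rw [← hB.corr _ _ hψa hψa k]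
    simp only [Function.comp_apply, hTk]
  have hcb : ∀ k, ∫ y, conj (b₀ ((S'.toEquiv ^ k : Equiv.Perm Y) y)) * b₀ y ∂ν = cb k := fun k => by
    rw [← integral_mp hsnd (g := fun y => conj (b₀ ((S'.toEquiv ^ k : Equiv.Perm Y) y)) * b₀ y)
      ((Complex.continuous_conj.comp_aestronglyMeasurable
        (hb₀.comp_measurePreserving (measurePreserving_zpow S' hS' k)).aestronglyMeasurable).mul
          hb₀.aestronglyMeasurable)]
    simp only [cb]
    rw [← hB.corr _ _ hψb hψb k]
    simp only [Function.comp_apply, hTk]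
  have hcc : ∀ k, fourierCoeff (fun x => conj (χ x) * χ x) k = ca k * cb k := fun k => by
    rw [← hB.corr hh hh hχ hχ k, ← hca k, ← hcb k, ← integral_prod_mul]
    refine integral_congr_ae (Eventually.of_forall fun z => ?_)
    simp only [h, hTk, map_mul]
    ring
  have hsum2 : ∀ {ψ : L2Circ} {C : ℝ}, (∀ᵐ x ∂haarAddCircle, ‖ψ x‖ ≤ C) →
      Summable fun k => ‖fourierCoeff (fun x => conj (ψ x) * ψ x) k‖ ^ 2 := fun {ψ C} hC => by
    have hm : MemLp (fun x => conj (ψ x) * ψ x) 2 (haarAddCircle : Measure Circ) :=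
      MemLp.of_bound (integrable_conj_mul ψ ψ).aestronglyMeasurable (C * C) (by
        filter_upwards [hC] with x hx
        rw [norm_mul, Complex.norm_conj]
        exact mul_le_mul hx hx (norm_nonneg _) ((norm_nonneg _).trans hx))
    simpa [fourierCoeff_congr_ae hm.coeFn_toLp] using (hasSum_sq_fourierCoeff (hm.toLp _)).summable
  have hsum : Summable fun k => ‖ca k * cb k‖ := by
    refine Summable.of_nonneg_of_le (fun k => norm_nonneg _) (fun k => ?_)
      ((hsum2 hCa).add (hsum2 hCb))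
    rw [norm_mul]
    show ‖ca k‖ * ‖cb k‖ ≤ ‖ca k‖ ^ 2 + ‖cb k‖ ^ 2
    nlinarith [sq_nonneg (‖ca k‖ - ‖cb k‖), norm_nonneg (ca k), norm_nonneg (cb k)]
  set G : C(Circ, ℂ) := ∑' k, (ca k * cb k) • fourier k
  have hGs : Summable fun k => (ca k * cb k) • (fourier k : C(Circ, ℂ)) := by
    refine Summable.of_norm ?_
    simpa [norm_smul, fourier_norm] using hsum
  have hG : ∀ n, fourierCoeff G n = ca n * cb n := fun n => by
    have h1 : HasSum (fun k => (ca k * cb k) • fourierLp 2 k)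
        (ContinuousMap.toLp (E := ℂ) 2 (haarAddCircle : Measure Circ) ℂ G) := by
      simpa [map_smul] using hGs.hasSum.mapL (ContinuousMap.toLp (E := ℂ) 2 haarAddCircle ℂ)
    have h2 := h1.mapL (innerSL ℂ (fourierLp (T := 1) 2 n))
    simp only [innerSL_apply_apply, inner_smul_right,
      orthonormal_iff_ite.1 orthonormal_fourier, mul_ite, mul_one, mul_zero] at h2
    rw [← fourierCoeff_toLp, ← fourierBasis_repr, HilbertBasis.repr_apply_apply, coe_fourierBasis]
    exact h2.unique ((hasSum_ite_eq n (ca n * cb n)).congr_fun fun k => by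
      rcases eq_or_ne k n with rfl | h
      · simp
      · simp [h, Ne.symm h])
  have hGχ : (fun x => conj (χ x) * χ x - G x) =ᵐ[haarAddCircle] 0 := by
    have hGi : Integrable G haarAddCircle :=
      G.continuous.integrable_of_hasCompactSupport (HasCompactSupport.of_compactSpace _)
    refine ae_zero_of_fourierCoeff ((integrable_conj_mul χ χ).sub hGi) fun n => ?_
    have : fourierCoeff (fun x => conj (χ x) * χ x - G x) n =
        fourierCoeff (fun x => conj (χ x) * χ x) n - fourierCoeff G n := by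
      simp only [fourierCoeff, smul_sub]
      exact integral_sub ((integrable_conj_mul χ χ).fourier_smul _) (hGi.fourier_smul _)
    rw [this, hcc, hG, sub_self]
  obtain ⟨x₀, hx₀⟩ : ∃ x₀, G x₀ ≠ 0 := by
    by_contra h
    push Not at h
    have h0 := hG 0
    rw [show fourierCoeff G 0 = 0 by simp [fourierCoeff, h], ← hca, ← hcb] at h0
    simp only [zpow_zero, Equiv.Perm.coe_one, id_eq] at h0
    rw [show (∫ x, conj (a₀ x) * a₀ x ∂μ) = ((∫ x, ‖a₀ x‖ ^ 2 ∂μ : ℝ) : ℂ) by
        rw [← integral_complex_ofReal]; simp only [Complex.conj_mul', Complex.ofReal_pow],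
      show (∫ y, conj (b₀ y) * b₀ y ∂ν) = ((∫ y, ‖b₀ y‖ ^ 2 ∂ν : ℝ) : ℂ) by
        rw [← integral_complex_ofReal]; simp only [Complex.conj_mul', Complex.ofReal_pow],
      ← Complex.ofReal_mul, eq_comm, Complex.ofReal_eq_zero] at h0
    nlinarith
  -- the arc where every element of the first factor vanishes
  have hclosed : IsClosed ((fourier 1 : C(Circ, ℂ)) '' {x | G x = 0}) :=
    ((isClosed_eq G.continuous continuous_const).isCompact.image
      (fourier 1).continuous).isClosed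
  have hnot : fourier 1 x₀ ∉ (fourier 1 : C(Circ, ℂ)) '' {x | G x = 0} := by
    rintro ⟨x, hx, hxe⟩
    simp only [fourier_one] at hxe
    exact hx₀ (injective_toCircle one_ne_zero (Subtype.val_injective hxe) ▸ hx)
  obtain ⟨δ, hδ, hball⟩ := Metric.isOpen_iff.1 hclosed.isOpen_compl _ hnot
  have hgap : ∀ x, G x = 0 → δ ≤ ‖fourier 1 x - fourier 1 x₀‖ := fun x hx => by
    by_contra hlt
    push Not at hlt
    exact hball (show fourier 1 x ∈ Metric.ball (fourier 1 x₀) δ by
      rwa [Metric.mem_ball, dist_eq_norm]) ⟨x, hx, rfl⟩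
  have hl : ‖fourier 1 x₀‖ = 1 := by rw [fourier_apply, Circle.norm_coe]
  have herg : ∀ k, k ≠ 0 → ∀ C, MeasurableSet C → (⇑S)^[k] ⁻¹' C =ᵐ[μ] C →
      μ.real C = 0 ∨ μ.real C = 1 := by
    intro k hk C hC hfix
    set g : X → ℂ := fun x => (if x ∈ C then (1 : ℂ) else 0) - (μ.real C : ℂ)
    have hgm : MemLp g 2 μ := MemLp.of_bound
      (((Measurable.ite hC measurable_const measurable_const)).sub_const _).aestronglyMeasurable 2
      (Eventually.of_forall fun x => by
        refine (norm_sub_le _ _).trans ?_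
        rw [Complex.norm_real, Real.norm_of_nonneg measureReal_nonneg]
        have : μ.real C ≤ 1 := measureReal_le_one
        split_ifs <;> simp <;> linarith)
    have hind : (fun x => if x ∈ C then (1 : ℂ) else 0) = C.indicator fun _ => 1 := by
      funext x; simp [Set.indicator]
    have hg0 : ∫ x, g x ∂μ = 0 := by
      simp only [g]
      rw [integral_sub (f := fun x => if x ∈ C then (1 : ℂ) else 0)
        (by rw [hind]; exact (integrable_const 1).indicator hC) (integrable_const _), hind,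
        integral_indicator hC, setIntegral_const]
      simp
    have hz := hB.fixed_eq_zero (k := (k : ℤ)) (by exact_mod_cast hk)
      (g := fun z => g z.1) (hgm.comp_measurePreserving hfst)
      (by rw [← hg0]; exact integral_mp hfst hgm.aestronglyMeasurable) (by
        have h1 := hfst.quasiMeasurePreserving.ae (ae_iff.2 (by
          rw [show {x | ¬ (((⇑S)^[k] x ∈ C) ↔ x ∈ C)} = symmDiff ((⇑S)^[k] ⁻¹' C) C by
            ext x; simp [Set.mem_symmDiff]; tauto]
          exact measure_symmDiff_eq_zero_iff.2 hfix))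
        filter_upwards [h1] with z hz
        simp only [hTk (k : ℤ)]
        simp only [zpow_natCast, Equiv.Perm.coe_pow, g]
        rw [show ((⇑S.toEquiv)^[k]) z.1 = (⇑S)^[k] z.1 from rfl]
        simp only [hz])
    have hz2 : ∫ x, ‖g x‖ ^ 2 ∂μ = 0 := by
      rw [← integral_mp hfst (g := fun x => ‖g x‖ ^ 2) (hgm.aestronglyMeasurable.norm.pow 2)]
      refine integral_eq_zero_of_ae ?_
      filter_upwards [hz] with z hz
      simp only [Pi.zero_apply] at hz
      simp [hz]
    have e : ∀ x, ‖g x‖ ^ 2 = C.indicator (fun _ => 1 - 2 * μ.real C) x + μ.real C ^ 2 := fun x => by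
      by_cases hx : x ∈ C
      · rw [Set.indicator_of_mem hx, show g x = ((1 - μ.real C : ℝ) : ℂ) by simp [g, hx],
          Complex.norm_real, Real.norm_eq_abs, sq_abs]
        ring
      · rw [Set.indicator_of_notMem hx, show g x = ((-μ.real C : ℝ) : ℂ) by simp [g, hx],
          Complex.norm_real, Real.norm_eq_abs, sq_abs]
        ring
    rw [funext e, integral_add ((integrable_const _).indicator hC) (integrable_const _),
      integral_indicator hC, setIntegral_const] at hz2
    simp only [integral_const, probReal_univ, smul_eq_mul] at hz2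
    rcases mul_eq_zero.1 (show μ.real C * (1 - μ.real C) = 0 by linarith) with h' | h'
    · exact Or.inl h'
    · exact Or.inr (by linarith)
  obtain ⟨a, ha, ha0, hlt⟩ := exists_approx_eigen hS herg hA hA0' hA1' hl hδ
  have hag := ha.comp_measurePreserving hfst
  obtain ⟨ψ, hψ⟩ := hB.rep hag (by
    rw [← ha0]; exact integral_mp hfst ha.aestronglyMeasurable)
  have hcross : (fun x => conj (ψ x) * χ x) =ᵐ[haarAddCircle] 0 := by
    refine ae_zero_of_fourierCoeff (integrable_conj_mul ψ χ) fun k => ?_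
    rw [← hB.corr hag hh hψ hχ k]
    rw [show (fun z : X × Y => conj ((a ∘ Prod.fst) ((T ^ k) z)) * h z) = fun z =>
        (conj (a ((S.toEquiv ^ k : Equiv.Perm X) z.1)) * a₀ z.1) * b₀ z.2 by
      funext z; simp only [Function.comp_apply, hTk, h]; ring,
      integral_prod_mul (fun x => conj (a ((S.toEquiv ^ k : Equiv.Perm X) x)) * a₀ x) b₀, hb₀0,
      mul_zero]
  have hgapψ : ∀ᵐ x ∂haarAddCircle,
      δ ^ 2 * ‖ψ x‖ ^ 2 ≤ ‖(mulFourier 1 ψ - fourier 1 x₀ • ψ) x‖ ^ 2 := by
    filter_upwards [hcross, hGχ, Lp.coeFn_sub (mulFourier 1 ψ) (fourier 1 x₀ • ψ),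
      Lp.coeFn_smul (fourier 1 x₀) ψ, coeFn_mulFourier 1 ψ] with x h1 h2 h3 h4 h5
    rw [h3, Pi.sub_apply, h4, h5, Pi.smul_apply, smul_eq_mul, ← sub_mul, norm_mul, mul_pow]
    by_cases hψx : ψ x = 0
    · simp [hψx]
    · have hχx : χ x = 0 := by simpa [hψx] using h1
      simp only [hχx, mul_zero, zero_sub, Pi.zero_apply, neg_eq_zero] at h2
      gcongr
      exact hgap x h2
  have hVd : hB.V (mulFourier 1 ψ - fourier 1 x₀ • ψ) =
      ((hag.comp_measurePreserving (hB.mp 1)).sub (hag.const_smul (fourier 1 x₀))).toLp _ := by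
    rw [MemLp.toLp_sub (hag.comp_measurePreserving (hB.mp 1)) (hag.const_smul (fourier 1 x₀)),
      MemLp.toLp_const_smul _ hag, map_sub, map_smul, ← hB.U_V, hψ, hB.U_toLp]
  have hnorm : δ ^ 2 * ‖ψ‖ ^ 2 ≤ ‖mulFourier 1 ψ - fourier 1 x₀ • ψ‖ ^ 2 := by
    have e : ∀ φ : L2Circ, ‖φ‖ ^ 2 = ∫ x, ‖φ x‖ ^ 2 ∂haarAddCircle := fun φ => by
      rw [← norm_sq_toLp (Lp.memLp φ), Lp.toLp_coeFn]
    rw [e, e, ← integral_const_mul]
    exact integral_mono_ae ((Lp.memLp ψ).integrable_norm_pow'.const_mul _)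
      (Lp.memLp _).integrable_norm_pow' hgapψ
  rw [← hB.V.norm_map, ← hB.V.norm_map (mulFourier 1 ψ - fourier 1 x₀ • ψ), hψ, hVd, norm_sq_toLp,
    norm_sq_toLp] at hnorm
  have e1 : ∫ z, ‖(a ∘ Prod.fst) z‖ ^ 2 ∂μ.prod ν = ∫ x, ‖a x‖ ^ 2 ∂μ :=
    integral_mp hfst (ha.aestronglyMeasurable.norm.pow 2)
  have e2 : ∫ z, ‖((((a ∘ Prod.fst) ∘ ⇑(T ^ (1 : ℤ))) - (fourier 1 x₀ : ℂ) • (a ∘ Prod.fst)) : X × Y → ℂ) z‖ ^ 2 ∂μ.prod ν
      = ∫ x, ‖a (S x) - fourier 1 x₀ * a x‖ ^ 2 ∂μ := by
    rw [← integral_mp hfst (g := fun x => ‖a (S x) - fourier 1 x₀ * a x‖ ^ 2)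
      (((ha.comp_measurePreserving hS).aestronglyMeasurable.sub
        (ha.aestronglyMeasurable.const_mul _)).norm.pow 2)]
    refine integral_congr_ae (Eventually.of_forall fun z => ?_)
    simp [hT, Pi.sub_apply, smul_eq_mul]
    rfl
  rw [e1, e2] at hnorm
  linarith

end Vale.Agent.P130
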